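import Crest.Agent.R27.Z.M.Elem

/-!
Row 27, block M1: removing the squarefree condition with cubes (port of `R17/M1/Cube`).
-/

set_option autoImplicit false

namespace Crest.Agent.R27.Z.M1

open scoped ComplexConjugate
open Crest.Agent.R27.Ab

variable [Bd]

/-- `tsum_tau0` for `n ↦ f (n b³)`, `tau0_mul_cube`, `tau0_eq` (or directly: `(c, B) ↦ c B³` is
injective on squarefree `c`, `sqfree_cube_unique`, and its image carries `tau0`) -/
theorem GB_eq {f : O → ℂ} (hf : Summable fun n : Pr => tau0 n * f n) {b : O} (hb : Prim b) :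
    GB f b = ∑' b' : Pr, FB f (b * b') := by
  classical
  have hb3 : b ^ 3 ≠ 0 := pow_ne_zero 3 hb.ne_zero
  have h1 := hf.comp_injective (i := fun n : Pr => (⟨n * b ^ 3, (Pr_prim n).mul (hb.pow 3)⟩ : Pr))
    fun n n' h => Subtype.ext (mul_right_cancel₀ hb3 (congrArg Subtype.val h))
  have e : ∀ n : O, tau0 (n * b ^ 3) * f (n * b ^ 3) =
      tau0 n * ((Real.sqrt (nm b) : ℂ) * f (n * b ^ 3)) := fun n => by
    rw [tau0_mul_cube n hb, mul_assoc]
  have h2 : Summable fun n : Pr => tau0 n * ((Real.sqrt (nm b) : ℂ) * f (n * b ^ 3)) := by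
    simpa only [Function.comp_def, e] using h1
  rw [GB, tsum_congr fun n : Pr => e n,
    tsum_tau0 (f := fun n => (Real.sqrt (nm b) : ℂ) * f (n * b ^ 3)) h2]
  refine tsum_congr fun b' => ?_
  rw [FB, ← tsum_mul_left]
  refine tsum_congr fun c => ?_
  split_ifs with hc
  · rw [tau0_eq (Pr_prim c) (hb.mul (Pr_prim b')) hc, gsb_sqrt_mul,
      show (c : O) * (b * b') ^ 3 = c * b' ^ 3 * b ^ 3 by ring]
    ring
  · rw [mul_zero]

theorem summable_FB {f : O → ℂ} (hf : Summable fun n : Pr => tau0 n * f n) :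
    Summable fun B : Pr => FB f B := by
  classical
  have h1 := hf.comp_injective (i := fun x : {x : Pr × Pr | Squarefree (x.2 : O)} =>
      (⟨x.1.2 * x.1.1 ^ 3, (Pr_prim _).mul ((Pr_prim _).pow 3)⟩ : Pr))
    fun x y h => by
      have := sqfree_cube_unique (Pr_prim _) (Pr_prim _) x.2 y.2 (congrArg Subtype.val h)
      exact Subtype.ext (Prod.ext (Subtype.ext this.2) (Subtype.ext this.1))
  have h2 := (summable_subtype_iff_indicator (s := {x : Pr × Pr | Squarefree (x.2 : O)})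
    (f := fun x : Pr × Pr => tau0 (x.2 * x.1 ^ 3) * f (x.2 * x.1 ^ 3))).1 h1
  refine h2.prod.congr fun B => tsum_congr fun c => ?_
  simp [Set.indicator_apply]

theorem gm_one {Θ : ℝ} (hΘ : 1 ≤ Θ) : gm Θ 1 = 1 := by
  rw [gm, Finset.sum_eq_single 1]
  · simp
  · intro b hb hne
    exact if_neg fun h => hne ((mem_ball.1 hb).1.eq_one_of_isUnit (isUnit_of_dvd_one h))
  · intro h
    exact absurd (mem_ball.2 ⟨prim_one, by simpa using hΘ⟩) h

/-- `sum_mu_pdiv` -/
theorem gm_eq_zero {Θ : ℝ} {B : O} (hB : Prim B) (h1 : B ≠ 1) (h : nm B ≤ Θ) : gm Θ B = 0 := by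
  classical
  have := sum_mu_pdiv hB
  rw [if_neg h1] at this
  rw [gm, ← Finset.sum_filter, ← this]
  refine Finset.sum_congr (Finset.ext fun b => ?_) fun _ _ => rfl
  rw [Finset.mem_filter, mem_ball, mem_pdiv hB.ne_zero]
  exact ⟨fun h' => ⟨h'.1.1, h'.2⟩, fun h' => ⟨⟨h'.1, (nm_le_of_dvd h'.2 hB.ne_zero).trans h⟩, h'.2⟩⟩

theorem norm_gm_le (Θ : ℝ) {B : O} (hB : B ≠ 0) : ‖gm Θ B‖ ≤ (pdiv B).card := by
  classical
  rw [gm, ← Finset.sum_filter]
  refine (norm_sum_le _ _).trans ((Finset.sum_le_card_nsmul _ _ 1 fun b _ => norm_mu_le b).trans ?_)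
  rw [nsmul_eq_mul, mul_one]
  exact_mod_cast Finset.card_le_card fun b hb =>
    (mem_pdiv hB).2 ⟨(mem_ball.1 (Finset.mem_filter.1 hb).1).1, (Finset.mem_filter.1 hb).2⟩

open Classical in
/-- `∑_{N b ≤ Θ} μ(b) GB b = ∑_B gm B · FB B` (`GB_eq`, `tsum_Pr_dvd`, `Summable.tsum_finsetSum`),
then `Summable.tsum_eq_add_tsum_ite` at `B = 1`, `gm_one`, `gm_eq_zero`. -/
theorem cube {f : O → ℂ} (hf : Summable fun n : Pr => tau0 n * f n) {Θ : ℝ} (hΘ : 1 ≤ Θ) :
    FB f 1 = ∑ b ∈ ball Θ, mu b * GB f b -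
      ∑' B : Pr, if Θ < nm B then gm Θ B * FB f B else 0 := by
  have hs : ∀ b ∈ ball Θ, Summable fun B : Pr => (if b ∣ (B : O) then mu b else 0) * FB f B :=
    fun b _ => Summable.of_norm_bounded (summable_FB hf).norm fun B => by
      rw [norm_mul]
      refine mul_le_of_le_one_left (norm_nonneg _) ?_
      split_ifs
      · exact norm_mu_le b
      · simp
  have h1 : ∑ b ∈ ball Θ, mu b * GB f b = ∑' B : Pr, gm Θ B * FB f B := by
    simp only [gm, Finset.sum_mul]
    rw [Summable.tsum_finsetSum hs]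
    refine Finset.sum_congr rfl fun b hb => ?_
    rw [GB_eq hf (mem_ball.1 hb).1, ← tsum_Pr_dvd (mem_ball.1 hb).1, ← tsum_mul_left]
    refine tsum_congr fun B => ?_
    split_ifs <;> simp
  have h2 : Summable fun B : Pr => gm Θ B * FB f B := by
    simp only [gm, Finset.sum_mul]
    exact summable_sum hs
  rw [h1, h2.tsum_eq_add_tsum_ite 1, eq_sub_iff_add_eq]
  congr 1
  · rw [OneMemClass.coe_one, gm_one hΘ, one_mul]
  · refine tsum_congr fun B => ?_
    by_cases hB : B = 1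
    · rw [if_pos hB, if_neg (by rw [hB]; simpa using hΘ)]
    · rw [if_neg hB]
      split_ifs with h
      · rfl
      · rw [gm_eq_zero (Pr_prim B) (fun c => hB (Subtype.ext c)) (not_lt.1 h), zero_mul]

end Crest.Agent.R27.Z.M1
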