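import Crest.Agent.R27.Z.M.Step2a

/-!
Row 27, block M1: the second Poisson summation (port of `R17/M1/Step2`).
-/

set_option autoImplicit false

namespace Crest.Agent.R27.Z.M1

open Crest.Agent.R17 (exp_twist_le)
open Crest.Agent.R17.M1 (nblk nblk_le)
open Crest.Agent.R27.Ab

variable [Bd]

/-- regrouping of the triple sum -/
theorem st2_regroup {W M : ℝ} (J : Finset O) (L : O → Finset (O × O × O))
    (Rw : O → O × O × O → Finset O) (Φ : O → O × O × O → O → ℝ)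
    (hL : ∀ i ∈ J, ∀ l ∈ L i, Prim l.2.2 ∧ nm l.2.2 ≤ W ∧ l.1 * l.2.1 ≠ 0 ∧ nm (l.1 * l.2.1) ≤ W)
    (hB : ∀ (j₂ : O) (G : ℝ) (B : Finset (O × O × O × O)), Prim j₂ → 1 ≤ G →
      (∀ k ∈ B, k.1 ∈ J ∧ (k.2.1, k.2.2.1, j₂) ∈ L k.1 ∧ G ≤ nm (k.2.1 * k.2.2.1) ∧
        nm (k.2.1 * k.2.2.1) ≤ 2 * G ∧ k.2.2.2 ∈ Rw k.1 (k.2.1, k.2.2.1, j₂)) →
      ∑ k ∈ B, Φ k.1 (k.2.1, k.2.2.1, j₂) k.2.2.2 ≤ M * (nm j₂)⁻¹) :
    ∑ i ∈ J, ∑ l ∈ L i, ∑ h ∈ Rw i l, Φ i l h ≤ nblk W * (M * ∑ n ∈ ball W, (nm n)⁻¹) := by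
  classical
  simp only [Finset.sum_sigma']
  rw [← Finset.sum_fiberwise_of_maps_to (t := ball W ×ˢ Finset.range (nblk W))
    (g := fun x : (Σ _ : O, Σ _ : O × O × O, O) => (x.2.1.2.2, blk (x.2.1.1 * x.2.1.2.1)))]
  · calc _ ≤ ∑ y ∈ ball W ×ˢ Finset.range (nblk W), M * (nm y.1)⁻¹ := by
          refine Finset.sum_le_sum fun y hy => ?_
          have hy1 := (mem_ball.1 (Finset.mem_product.1 hy).1).1
          refine le_trans (le_of_eq ?_) (hB y.1 (2 ^ y.2)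
            (((J.sigma fun i => (L i).sigma fun l => Rw i l).filter
              fun x => (x.2.1.2.2, blk (x.2.1.1 * x.2.1.2.1)) = y).image
                fun x => (x.1, x.2.1.1, x.2.1.2.1, x.2.2)) hy1 (one_le_pow₀ one_le_two) ?_)
          · rw [Finset.sum_image]
            · refine Finset.sum_congr rfl fun x hx => ?_
              have h1 := congrArg Prod.fst (Finset.mem_filter.1 hx).2
              simp only at h1
              simp only [← h1]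
            · rintro ⟨i, ⟨a, b, c⟩, h⟩ hx ⟨i', ⟨a', b', c'⟩, h'⟩ hx' hxx
              have h1 := congrArg Prod.fst (Finset.mem_filter.1 hx).2
              have h2 := congrArg Prod.fst (Finset.mem_filter.1 hx').2
              simp only [Prod.mk.injEq] at h1 h2 hxx
              obtain ⟨rfl, rfl, rfl, rfl⟩ := hxx
              rw [h1, h2]
          · intro k hk
            obtain ⟨⟨i, ⟨a, b, c⟩, h⟩, hx, rfl⟩ := Finset.mem_image.1 hk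
            obtain ⟨h1, rfl⟩ := Finset.mem_filter.1 hx
            simp only [Finset.mem_sigma] at h1
            obtain ⟨h2, h3, h4⟩ := h1
            exact ⟨h2, h3, blk_le (hL i h2 _ h3).2.2.1, (lt_blk _).le, h4⟩
      _ = _ := by
          rw [Finset.sum_product]
          simp only [Finset.sum_const, Finset.card_range, nsmul_eq_mul]
          rw [Finset.mul_sum, Finset.mul_sum]
  · rintro ⟨i, l, h⟩ hx
    simp only [Finset.mem_sigma] at hx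
    obtain ⟨h1, h2, -, h4⟩ := hL i hx.1 l hx.2.1
    exact Finset.mem_product.2 ⟨mem_ball.2 ⟨h1, h2⟩, Finset.mem_range.2 (blk_lt_nblk h4)⟩

/-- Recipe: `AdmP.sum_le_En` (`AdmP.gauss`), `lemmaP2` (`σ = δ / 4`, `A` from `tail_col_le`) for the
family `i ∈ J`, `b i = col ψ D a (Y / N i) t`, `v i = e i²`, `w = 1`, `K = H`, `X i = Y / N i`,
`T = Z^δ`.  Diagonal and tail: `l2_col_le`, `tail_col_le`, `Blk.sum_inv_le`.  Main term: write the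
triple sum over `(i, l, u)` as one sum (`Finset.sum_sigma'` or a filter of a product), split it by
`(j₂, blk (e₂ f₂)) ∈ ball (Z²) ×ˢ range (nblk (Z²))` (`Finset.sum_fiberwise_of_maps_to`), reindex a
fibre by `(i, (e₂, f₂, j₂), u) ↦ (i, e₂, f₂, u)`, `step2_blk` with `G = 2 ^ ν`, `sum_inv_le`,
`nblk_le`, `exp_twist_le`. -/
theorem step2 {a δ C₁ : ℝ} (ha : 0 < a) (hδ : 0 < δ) (hδ1 : δ ≤ 1)
    (hC₁ : 0 ≤ C₁) : ∃ C : ℝ, 1 ≤ C ∧ ∀ (Z U Λ : ℝ) (ψ : O → ℂ) (D : O)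
      (t : ℝ) (e : O) (Y J₀ H : ℝ) (J : Finset O),
      1 ≤ Z → U ≤ Z → 0 ≤ Λ → Ok ψ D → Prim e → nm D ≤ Z ^ 2 → 0 < Y → Y ≤ Z →
      1 ≤ J₀ → 1 ≤ H → Z ^ δ * Y ^ 2 * nm e ≤ H * U → Blk J₀ J →
      MB (2 * a) U (Y / J₀) Λ C₁ →
      DM ψ D a Y t e J H ≤ C * Z ^ (10 * δ) * (Y + Λ) * (1 + |t|) ^ C₁ * H := by
  obtain ⟨A, C₃, hA, hC₃, h₃⟩ := tail_col_le ha hδ
  obtain ⟨C₀, hC₀, h₀⟩ := lemmaP2 (δ / 4) (by positivity) A hA
  obtain ⟨C₂, hC₂, h₂⟩ := l2_col_le ha hδ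
  obtain ⟨C₄, hC₄, h₄⟩ := step2_blk ha hδ hδ1 hC₁
  obtain ⟨C₅, hC₅, h₅⟩ := sum_inv_le hδ
  obtain ⟨C₆, hC₆, h₆⟩ := nblk_le hδ
  obtain ⟨C₇, hC₇, h₇⟩ := exp_twist_le C₁
  have hcE := cE_pos
  have hcc := cc_pos
  refine ⟨1 + cE * (2 * cc * C₀ * C₂ + C₀ * C₇ * C₆ * C₄ * C₅ + 2 * cc * C₀ * C₃),
    le_add_of_nonneg_right (by positivity), ?_⟩
  intro Z U Λ ψ D t e Y J₀ H J hZ hU hΛ hok he hD hY hYZ hJ₀ hH hlo hJ hMB
  have hZ0 : 0 < Z := by linarith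
  have hH0 : 0 < H := by linarith
  have hT : 1 ≤ Z ^ δ := Real.one_le_rpow hZ hδ.le
  have hTZ : Z ^ δ ≤ Z := by
    simpa using Real.rpow_le_rpow_of_exponent_le hZ hδ1
  have hi1 : ∀ i ∈ J, 1 ≤ nm i := fun i hi => hJ₀.trans (hJ i hi).2.1
  have hX : ∀ i ∈ J, 0 < Y / nm i := fun i hi => div_pos hY (by linarith [hi1 i hi])
  have hXZ : ∀ i ∈ J, Y / nm i ≤ Z := fun i hi => (div_le_self hY.le (hi1 i hi)).trans hYZ
  obtain ⟨τ, ρ, hρ, h⟩ := h₀ J (fun i => col ψ D a (Y / nm i) t) (fun i => e * i ^ 2)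
    (fun _ => 1) (fun _ => H) (fun i => Y / nm i) (Z ^ δ) hT
    fun i hi => ⟨hok.admP ha (hX i hi) t, zero_le_one, hH0, hX i hi⟩
  simp only [one_mul] at h
  have b0 : DM ψ D a Y t e J H ≤ cE * ∑ i ∈ J,
      En true (fun m => col ψ D a (Y / nm i) t m * gt m * sx (e * i ^ 2) m) H := by
    rw [Finset.mul_sum]
    exact Finset.sum_le_sum fun i hi =>
      ((hok.admP ha (hX i hi) t).gauss _).sum_le_En true hH0 _ fun k hk => mem_rows.1 hk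
  have hinv := hJ.sum_inv_le (by linarith)
  have b1 : ∑ i ∈ J, C₀ * (H * l2 (col ψ D a (Y / nm i) t)) ≤
      2 * cc * C₀ * C₂ * (Z ^ δ * Y * H) := by
    calc _ ≤ ∑ i ∈ J, C₀ * C₂ * (Z ^ δ * Y * H) * (nm i)⁻¹ := Finset.sum_le_sum fun i hi => by
          refine (mul_le_mul_of_nonneg_left (mul_le_mul_of_nonneg_left
            (h₂ Z ψ D _ t hok hZ (hX i hi) (hXZ i hi)) hH0.le) hC₀.le).trans (le_of_eq ?_)
          ring
      _ ≤ C₀ * C₂ * (Z ^ δ * Y * H) * (2 * cc) := by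
          rw [← Finset.mul_sum]
          exact mul_le_mul_of_nonneg_left hinv (by positivity)
      _ = _ := by ring
  have b2 : ∑ i ∈ J, C₀ * tail A (col ψ D a (Y / nm i) t) (Y / nm i) (Z ^ δ) ≤
      2 * cc * C₀ * C₃ * Y := by
    calc _ ≤ ∑ i ∈ J, C₀ * C₃ * Y * (nm i)⁻¹ := Finset.sum_le_sum fun i hi => by
          refine (mul_le_mul_of_nonneg_left (h₃ Z ψ D _ t hok hZ (hX i hi) (hXZ i hi))
            hC₀.le).trans (le_of_eq ?_)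
          ring
      _ ≤ C₀ * C₃ * Y * (2 * cc) := by
          rw [← Finset.mul_sum]
          exact mul_le_mul_of_nonneg_left hinv (by positivity)
      _ = _ := by ring
  have hW : (1 : ℝ) ≤ Z ^ 2 := one_le_pow₀ hZ
  have b3 := st2_regroup (W := Z ^ 2) (M := C₄ * Z ^ (6 * δ) * Λ * (1 + |t| + |τ|) ^ C₁ * H) J
    (fun i => Lab (Y / nm i * Z ^ δ)) (fun i l => rows (len H (Y / nm i) (Z ^ δ) l))
    (fun i l h => pre (δ / 4) H l * ‖Sp false (child (col ψ D a (Y / nm i) t) ρ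
      ((δ / 4 : ℝ) + τ * Complex.I) l) (h * (e * i ^ 2) * l.1 * l.2.1 ^ 2)‖ ^ 2)
    (fun i hi l hl => by
      obtain ⟨l1, l2, l3, l4, -, l5⟩ := mem_Lab'.1 hl
      have l6 : nm (l.1 * l.2.1 * l.2.2) ≤ Z ^ 2 := l5.trans (by
        rw [sq]
        exact mul_le_mul (hXZ i hi) hTZ (by positivity) hZ0.le)
      exact ⟨l3, (nm_le_of_dvd (dvd_mul_left _ _) l4.ne_zero).trans l6, (l1.mul l2).ne_zero,
        (nm_le_of_dvd (dvd_mul_right _ _) l4.ne_zero).trans l6⟩)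
    fun j₂ G B hj₂ hG hB => h₄ Z U Λ ψ ρ D t τ e Y J₀ H G j₂ B hZ hU hΛ hok hρ he hD hY hYZ
      hJ₀ hH hG hlo hj₂ hMB fun k hk => by
        obtain ⟨k1, k2, k3, k4, k5⟩ := hB k hk
        exact ⟨(hJ _ k1).1, (hJ _ k1).2.1, (hJ _ k1).2.2, k2, k3, k4, k5⟩
  have hZ2 : (Z ^ 2) ^ δ = Z ^ (2 * δ) := by
    rw [← Real.rpow_natCast, ← Real.rpow_mul hZ0.le, Nat.cast_ofNat]
  have hZ10 : Z ^ (10 * δ) = Z ^ (2 * δ) * Z ^ (6 * δ) * Z ^ (2 * δ) := by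
    rw [← Real.rpow_add hZ0, ← Real.rpow_add hZ0]
    congr 1
    ring
  have b4 := h₅ (Z ^ 2) (ball (Z ^ 2)) hW fun n hn => mem_ball.1 hn
  have b5 := h₆ (Z ^ 2) hW
  rw [hZ2] at b4 b5
  have b6 := h₇ τ |t| (abs_nonneg t)
  have ht1 : 1 ≤ (1 + |t|) ^ C₁ := Real.one_le_rpow (by linarith [abs_nonneg t]) hC₁
  have b7 : ∑ i ∈ J, C₀ * Real.exp (-|τ| / 2) * ∑ l ∈ Lab (Y / nm i * Z ^ δ), pre (δ / 4) H l *
      ∑ h ∈ rows (len H (Y / nm i) (Z ^ δ) l), ‖Sp false (child (col ψ D a (Y / nm i) t) ρ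
        ((δ / 4 : ℝ) + τ * Complex.I) l) (h * (e * i ^ 2) * l.1 * l.2.1 ^ 2)‖ ^ 2 ≤
      C₀ * C₇ * C₆ * C₄ * C₅ * (Z ^ (10 * δ) * Λ * (1 + |t|) ^ C₁ * H) := by
    rw [← Finset.mul_sum]
    simp only [Finset.mul_sum (s := rows _)]
    have hs0 : 0 ≤ ∑ n ∈ ball (Z ^ 2), (nm n)⁻¹ :=
      Finset.sum_nonneg fun n _ => inv_nonneg.2 (nm_nonneg n)
    calc _ ≤ C₀ * Real.exp (-|τ| / 2) * (C₆ * Z ^ (2 * δ) *
          (C₄ * Z ^ (6 * δ) * Λ * (1 + |t| + |τ|) ^ C₁ * H * (C₅ * Z ^ (2 * δ)))) := by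
          refine mul_le_mul_of_nonneg_left (b3.trans ?_) (by positivity)
          gcongr
      _ = C₀ * C₆ * C₄ * C₅ * (Z ^ (10 * δ) * Λ * H) *
          (Real.exp (-|τ| / 2) * (1 + |t| + |τ|) ^ C₁) := by
          rw [hZ10]
          ring
      _ ≤ C₀ * C₆ * C₄ * C₅ * (Z ^ (10 * δ) * Λ * H) * (C₇ * (1 + |t|) ^ C₁) :=
          mul_le_mul_of_nonneg_left b6 (by positivity)
      _ = _ := by ring
  rw [Finset.sum_add_distrib, Finset.sum_add_distrib] at h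
  have hT10 : Z ^ δ ≤ Z ^ (10 * δ) := Real.rpow_le_rpow_of_exponent_le hZ (by linarith)
  have hE : 0 ≤ Z ^ (10 * δ) * (Y + Λ) * (1 + |t|) ^ C₁ * H := by positivity
  have e1 : Z ^ δ * Y * H ≤ Z ^ (10 * δ) * (Y + Λ) * (1 + |t|) ^ C₁ * H := by
    calc Z ^ δ * Y * H = Z ^ δ * Y * 1 * H := by ring
      _ ≤ _ := by gcongr; linarith
  have e2 : Z ^ (10 * δ) * Λ * (1 + |t|) ^ C₁ * H ≤
      Z ^ (10 * δ) * (Y + Λ) * (1 + |t|) ^ C₁ * H := by gcongr; linarith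
  have e3 : Y ≤ Z ^ (10 * δ) * (Y + Λ) * (1 + |t|) ^ C₁ * H := by
    refine le_trans ?_ e1
    calc Y = 1 * Y * 1 := by ring
      _ ≤ _ := by gcongr
  have f1 := mul_le_mul_of_nonneg_left e1 (show 0 ≤ 2 * cc * C₀ * C₂ by positivity)
  have f2 := mul_le_mul_of_nonneg_left e2 (show 0 ≤ C₀ * C₇ * C₆ * C₄ * C₅ by positivity)
  have f3 := mul_le_mul_of_nonneg_left e3 (show 0 ≤ 2 * cc * C₀ * C₃ by positivity)
  calc DM ψ D a Y t e J H ≤ cE * ((2 * cc * C₀ * C₂ + C₀ * C₇ * C₆ * C₄ * C₅ + 2 * cc * C₀ * C₃) *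
        (Z ^ (10 * δ) * (Y + Λ) * (1 + |t|) ^ C₁ * H)) := by
        refine b0.trans (mul_le_mul_of_nonneg_left (h.trans ?_) hcE.le)
        linarith
    _ ≤ _ := by linarith

end Crest.Agent.R27.Z.M1
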