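import Crest.Agent.R27.Z.M.Ident

/-!
Row 27, block M1: the coefficients produced by Lemma P are multiples of columns.
-/

set_option autoImplicit false

namespace Crest.Agent.R27.Z.M1

open scoped ComplexConjugate
open Crest.Agent.R17 (LN sj sj_false sj_true LN_mul_arg LN_mul_cpow)
open Crest.Agent.R27.Ab

variable [Bd] {ψ : O → ℂ} {D : O} {a X : ℝ}

/-- the child of a column is a multiple of a column -/
theorem child_col (h : Ok ψ D) (ha : 0 < a) (hX : 0 < X) (ρ : O → ℂ)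
    {σ : ℝ} (hσ : 0 < σ) (hσ' : σ ≤ 1 / 2) (t τ : ℝ) {l : O × O × O}
    (hl : Prim (l.1 * l.2.1 * l.2.2)) :
    ∃ κ : ℂ, ‖κ‖ ≤ (X / nm (l.1 * l.2.1 * l.2.2)) ^ (σ - 1 / 2) * Real.exp (a ^ 2 / 8) ∧
      ∀ m, Prim m → child (col ψ D a X t) ρ (σ + τ * Complex.I) l m =
        κ * col (fun n => ψ n * ρ n) (D * (l.1 * l.2.1 * l.2.2)) a
          (X / nm (l.1 * l.2.1 * l.2.2) * Real.exp (a ^ 2 * (σ - 1 / 2))) (t + τ) m := by
  classical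
  set L := l.1 * l.2.1 * l.2.2 with hL
  have hL0 : L ≠ 0 := hl.ne_zero
  have hY : 0 < X / nm L := div_pos hX (nm_pos hL0)
  set z : ℂ := (σ + τ * Complex.I) - 1 / 2 with hz
  have hre : z.re = σ - 1 / 2 := by simp [hz]
  have him : z.im = τ := by simp [hz]
  set E : ℂ := ((X / nm L : ℝ) : ℂ) ^ z * Complex.exp (((a ^ 2 * z.re ^ 2 / 2 : ℝ) : ℂ) +
    Complex.I * ((a ^ 2 * z.re * (t + z.im) : ℝ) : ℂ)) with hE
  have hEn : ‖E‖ ≤ (X / nm L) ^ (σ - 1 / 2) * Real.exp (a ^ 2 / 8) := by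
    rw [hE, norm_mul, Complex.norm_cpow_eq_rpow_re_of_pos hY, hre, Complex.norm_exp]
    refine mul_le_mul_of_nonneg_left ?_ (Real.rpow_nonneg hY.le _)
    rw [Real.exp_le_exp]
    simp only [Complex.add_re, Complex.ofReal_re, Complex.mul_re, Complex.I_re, zero_mul,
      Complex.I_im, Complex.ofReal_im, mul_zero, sub_zero, add_zero]
    have h1 : (σ - 1 / 2) ^ 2 ≤ 1 / 4 := by nlinarith
    nlinarith [mul_le_mul_of_nonneg_left h1 (sq_nonneg a)]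
  refine ⟨mu L * ψ L * one D L * E, ?_, fun m hm => ?_⟩
  · rw [norm_mul]
    exact (mul_le_of_le_one_left (norm_nonneg _) (h.norm_cf_le L)).trans hEn
  · have hm0 : m ≠ 0 := hm.ne_zero
    have hLN := LN_mul_cpow ha hY (nm_pos hm0) t z
    rw [← hE, hre, him] at hLN
    simp only [child, col, cf]
    rw [← hL, ← hz, nm_mul, LN_mul_arg, mu_mul', one_mul_left, one_mul_right, h.tw.mul hL0 hm0]
    by_cases hc : IsCoprime L m
    · rw [if_pos hc, idn_one hc.symm]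
      linear_combination (mu L * mu m * ψ L * ψ m * one D L * one D m * ρ m) * hLN
    · rw [if_neg hc, idn_zero (D := L) fun h' => hc h'.symm]
      simp

theorem chl_Sp (b c : O → ℂ) (κ : ℂ) (h : ∀ m, Prim m → b m = κ * c m) {M : ℝ} (hκ : ‖κ‖ ≤ M)
    (sg : Bool) (k : O) : ‖Sp sg b k‖ ^ 2 ≤ M ^ 2 * ‖Sp sg c k‖ ^ 2 := by
  have h1 : Sp sg b k = κ * Sp sg c k := by
    simp only [Sp]
    rw [← tsum_mul_left]
    refine tsum_congr fun n => ?_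
    rw [h n n.2, mul_assoc]
  rw [h1, norm_mul, mul_pow]
  exact mul_le_mul_of_nonneg_right (pow_le_pow_left₀ (norm_nonneg _) hκ 2) (sq_nonneg _)

omit [Bd] in
theorem chl_sq {Y : ℝ} (hY : 0 < Y) (σ a : ℝ) :
    (Y ^ (σ - 1 / 2) * Real.exp (a ^ 2 / 8)) ^ 2 = Real.exp (a ^ 2 / 4) * Y ^ (2 * σ - 1) := by
  have h1 : (Y ^ (σ - 1 / 2)) ^ 2 = Y ^ (2 * σ - 1) := by
    rw [sq, ← Real.rpow_add hY]
    congr 1
    ring
  have h2 : Real.exp (a ^ 2 / 8) ^ 2 = Real.exp (a ^ 2 / 4) := by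
    rw [sq, ← Real.exp_add]
    congr 1
    ring
  rw [mul_pow, h1, h2]
  ring

theorem child_Am (h : Ok ψ D) (ha : 0 < a) (hX : 0 < X) (ρ : O → ℂ)
    {σ : ℝ} (hσ : 0 < σ) (hσ' : σ ≤ 1 / 2) (t τ : ℝ) {l : O × O × O}
    (hl : Prim (l.1 * l.2.1 * l.2.2)) (u : O) :
    ‖Sp false (child (col ψ D a X t) ρ (σ + τ * Complex.I) l) u‖ ^ 2 ≤
      Real.exp (a ^ 2 / 4) * (X / nm (l.1 * l.2.1 * l.2.2)) ^ (2 * σ - 1) *
        ‖Am (fun n => ψ n * ρ n) (D * (l.1 * l.2.1 * l.2.2)) a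
          (X / nm (l.1 * l.2.1 * l.2.2) * Real.exp (a ^ 2 * (σ - 1 / 2))) (t + τ) u‖ ^ 2 := by
  obtain ⟨κ, hκ, hc⟩ := child_col h ha hX ρ hσ hσ' t τ hl
  have hY : 0 < X / nm (l.1 * l.2.1 * l.2.2) := div_pos hX (nm_pos hl.ne_zero)
  refine (chl_Sp _ _ κ hc hκ false u).trans (le_of_eq ?_)
  rw [chl_sq hY]
  rfl

/-- the same for the dual coefficients (`dual_false`) -/
theorem child_Gm (h : Ok ψ D) (ha : 0 < a) (hX : 0 < X) (ρ : O → ℂ)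
    {σ : ℝ} (hσ : 0 < σ) (hσ' : σ ≤ 1 / 2) (t τ : ℝ) {l : O × O × O}
    (hl : Prim (l.1 * l.2.1 * l.2.2)) (k : O) :
    ‖Sp true (dual false (col ψ D a X t) ρ (σ + τ * Complex.I) l) k‖ ^ 2 ≤
      Real.exp (a ^ 2 / 4) * (X / nm (l.1 * l.2.1 * l.2.2)) ^ (2 * σ - 1) *
        ‖Gm (fun n => ψ n * ρ n) (D * (l.1 * l.2.1 * l.2.2)) a
          (X / nm (l.1 * l.2.1 * l.2.2) * Real.exp (a ^ 2 * (σ - 1 / 2))) (t + τ)
          (l.1 * l.2.2 ^ 2) k‖ ^ 2 := by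
  obtain ⟨κ, hκ, hc⟩ := child_col h ha hX ρ hσ hσ' t τ hl
  have hY : 0 < X / nm (l.1 * l.2.1 * l.2.2) := div_pos hX (nm_pos hl.ne_zero)
  rw [dual_false]
  refine (chl_Sp _ (fun m => col (fun n => ψ n * ρ n) (D * (l.1 * l.2.1 * l.2.2)) a
    (X / nm (l.1 * l.2.1 * l.2.2) * Real.exp (a ^ 2 * (σ - 1 / 2))) (t + τ) m * gt m *
      sx (l.1 * l.2.2 ^ 2) m) κ (fun m hm => ?_) hκ true k).trans (le_of_eq ?_)
  · rw [hc m hm]
    ring
  · rw [chl_sq hY]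
    rfl

end Crest.Agent.R27.Z.M1
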