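import Crest.Agent.R27.Z.M.Triv

/-!
Row 27, block M1: the dual sum as a theta sum, trivial bounds (port of `R17/M1/CubeB`).
-/

set_option autoImplicit false

namespace Crest.Agent.R27.Z.M1

open scoped ComplexConjugate
open Crest.Agent.R17 (LN sj sj_false sj_true LN_mul_arg)
open Crest.Agent.R27.Ab

variable [Bd]

section
variable {ψ : O → ℂ} {D : O} {a X : ℝ}

theorem cbb_fd (h : Ok ψ D) (t : ℝ) (v k : O) :
    ∃ c : O → ℂ, (∀ n, ‖c n‖ ≤ 1) ∧ ∀ (a X : ℝ) n, fd ψ D a X t v k n = c n * LN a X t (nm n) := by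
  refine ⟨fun n => conj (cb 2 n) * gam n * al n * ψ n * one D n * sx v n * conj (sx k n),
    fun n => ?_, fun a X n => by simp only [fd]; ring⟩
  simp only [norm_mul, RCLike.norm_conj]
  have h1 := norm_cb_le (2 : O) n
  have h2 := norm_gam_le n
  have h3 := norm_al_le n
  have h4 := h.tw.norm_le n
  have h5 := norm_one_le D n
  have h7 := norm_sx_le v n
  have h8 := norm_sx_le k n
  calc _ ≤ 1 * 1 * 1 * 1 * 1 * 1 * (1 : ℝ) := by gcongr
    _ = _ := by ring

theorem summable_fd (h : Ok ψ D) (ha : 0 < a) (hX : 0 < X) (t : ℝ) (v k : O) :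
    Summable fun n : Pr => tau0 n * fd ψ D a X t v k n := by
  obtain ⟨c, hc, hf⟩ := cbb_fd h t v k
  obtain ⟨C, -, hC⟩ := sum_LN_O ha (1 / 6)
  have := (hC (fun n : Pr => (n : O)) (fun n => tau0 n * c n) 1 X t Subtype.val_injective
    (fun n hn => absurd (Pr_prim n) hn) (fun n _ => ?_) zero_le_one hX).1.of_norm
  · exact this.congr fun n => by rw [hf, mul_assoc]
  · rw [norm_mul, one_mul]
    exact (mul_le_of_le_one_right (norm_nonneg _) (hc n)).trans (norm_tau0_le n)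

/-- `mu_mul_gs_one`, `tau0_sqfree` -/
theorem Gm_eq_FB (_hψ : IsTw ψ) (t : ℝ) (v k : O) :
    Gm ψ D a X t v k = FB (fd ψ D a X t v k) 1 := by
  rw [Gm, Sp, FB]
  refine tsum_congr fun c => ?_
  simp only [sj_true, one_pow, mul_one, col, cf, fd, Ab.gt]
  split_ifs with hs
  · rw [tau0_sqfree (Pr_prim c) hs]
    have := mu_mul_gs_one hs
    rw [mul_div_assoc] at this
    linear_combination (ψ c * one D c * LN a X t (nm c) * sx v c * conj (sx k c)) * this
  · rw [mu_eq_zero.2 hs]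
    ring

end

/-- trivial bound for large cubes -/
theorem norm_FB_le {a : ℝ} (ha : 0 < a) : ∃ C : ℝ, 0 < C ∧
    ∀ (ψ : O → ℂ) (D : O) (X t : ℝ) (v k B : O), Ok ψ D → 0 < X → Prim B →
      ‖FB (fd ψ D a X t v k) B‖ ≤ C * X ^ 2 * nm B ^ (-5 : ℝ) := by
  classical
  obtain ⟨C₁, -, hC₁⟩ := sum_LN_O ha 0
  obtain ⟨C, hC0, hC⟩ := sum_LN_O_small (θ := 0) (σ := 2) ha (by norm_num)
  refine ⟨C, hC0, fun ψ D X t v k B h hX hB => ?_⟩
  obtain ⟨c, hc, hf⟩ := cbb_fd h t v k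
  have hB0 := nm_pos hB.ne_zero
  have hB1 := one_le_nm hB.ne_zero
  have hY : 0 < X / nm B ^ 3 := by positivity
  set κ : Pr → ℂ := fun n => if Squarefree (n : O) then tau0 (n * B ^ 3) * c (n * B ^ 3) else 0 with hκ
  have h0 : ∀ n : Pr, ¬ Prim (n : O) → κ n = 0 := fun n hn => absurd (Pr_prim n) hn
  have h1 : ∀ n : Pr, Prim (n : O) → ‖κ n‖ ≤ nm B * nm n ^ (0 : ℝ) := fun n hn => by
    simp only [hκ, Real.rpow_zero, mul_one]
    split_ifs with hs
    · rw [norm_mul, norm_tau0 hn hB hs]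
      exact (mul_le_of_le_one_right (Real.sqrt_nonneg _) (hc _)).trans (Real.sqrt_le_iff.2 ⟨hB0.le, by nlinarith⟩)
    · rw [norm_zero]
      exact hB0.le
  have e : FB (fd ψ D a X t v k) B = ∑' n : Pr, κ n * LN a (X / nm B ^ 3) t (nm n) := by
    rw [FB]
    refine tsum_congr fun n => ?_
    simp only [hκ]
    split_ifs
    · rw [hf, nm_mul, nm_pow, mul_comm (nm (n : O)), LN_mul_arg, mul_assoc]
    · rw [zero_mul]
  rw [e]
  refine (norm_tsum_le_tsum_norm (hC₁ (fun n : Pr => (n : O)) κ _ _ t Subtype.val_injective h0 h1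
    (by positivity) hY).1).trans ((hC (fun n : Pr => (n : O)) κ _ _ t Subtype.val_injective h0 h1
    (by positivity) hY).trans (le_of_eq ?_))
  rw [Real.rpow_two, Real.rpow_neg hB0.le, show (5 : ℝ) = (5 : ℕ) by norm_num, Real.rpow_natCast]
  field_simp

/-- trivial bound for short theta sums -/
theorem norm_TT_le {a : ℝ} (ha : 0 < a) : ∃ C : ℝ, 0 < C ∧
    ∀ (ρ : Cl → ℂ) (X t : ℝ) (k : O), (∀ x, ‖ρ x‖ ≤ 1) → 0 < X → X ≤ 1 → ‖TT ρ a X t k‖ ≤ C * X := by
  obtain ⟨C, hC0, hC⟩ := sum_LN_O ha (1 / 6)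
  refine ⟨C, hC0, fun ρ X t k hρ hX hX1 => ?_⟩
  obtain ⟨h1, h2⟩ := hC (fun n : Pr => (n : O)) (fun n => tau0 n * al n * ρ (cls n) * conj (sx k n)) 1 X t
    Subtype.val_injective (fun n hn => absurd (Pr_prim n) hn) (fun n _ => by
      simp only [norm_mul, RCLike.norm_conj]
      have h1 := norm_tau0_le n
      have h3 := norm_al_le n
      have h4 := hρ (cls n)
      have h8 := norm_sx_le k (n : O)
      have h0 := nm_nonneg n
      calc _ ≤ nm n ^ (1 / 6 : ℝ) * 1 * 1 * 1 := by gcongr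
        _ = _ := by ring) zero_le_one hX
  refine ((norm_tsum_le_tsum_norm h1).trans h2).trans ?_
  rw [mul_one]
  refine mul_le_mul_of_nonneg_left ?_ hC0.le
  exact (Real.rpow_le_rpow_of_exponent_ge hX hX1 (by norm_num)).trans_eq (Real.rpow_one X)

end Crest.Agent.R27.Z.M1
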