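import Crest.Agent.R27.Z.M.CubeB

/-!
Row 27, block M1: pulling a cube out of the dual sum (port of `R17/M1/CubeC`).
-/

set_option autoImplicit false

namespace Crest.Agent.R27.Z.M1

open scoped ComplexConjugate
open Crest.Agent.R17 (LN LN_mul_arg)
open Crest.Agent.R27.Ab

variable [Bd]

omit [Bd] in
theorem cc_norm {x y : ℂ} {N : ℝ} (hx : ‖x‖ ≤ N) (hy : ‖y‖ ≤ 1) : ‖x * y‖ ≤ N := by
  rw [norm_mul]
  exact (mul_le_mul hx hy (norm_nonneg _) ((norm_nonneg _).trans hx)).trans (mul_one _).le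

theorem cc_sq {x G : ℂ} {B : O} (h : ‖x‖ ≤ Real.sqrt (nm B)) : ‖x * G‖ ^ 2 ≤ nm B * ‖G‖ ^ 2 := by
  have := pow_le_pow_left₀ (norm_nonneg _) h 2
  rw [Real.sq_sqrt (nm_nonneg B)] at this
  rw [norm_mul, mul_pow]
  gcongr

theorem cc_sqrt (B : O) : ‖(Real.sqrt (nm B) : ℂ)‖ ≤ Real.sqrt (nm B) := by
  rw [Complex.norm_real, Real.norm_of_nonneg (Real.sqrt_nonneg _)]

theorem cc_LN (a X t : ℝ) (n B : O) : LN a X t (nm (n * B ^ 3)) = LN a (X / nm B ^ 3) t (nm n) := by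
  rw [nm_mul, nm_pow, mul_comm, LN_mul_arg]

theorem cc_row {n : O} (hn : n ≠ 0) (D v k : O) :
    conj (sx (k * v ^ 5 * D ^ 6) n) = one D n * sx v n * conj (sx k n) := by
  rw [sx_mul_left, sx_mul_left, sx_pow_left v n (by norm_num), sx_pow_left D n (by norm_num),
    ← conj_sx, sx_pow_six, map_mul, map_mul, Complex.conj_conj, Ab.one]
  by_cases h : IsCoprime n D
  · rw [if_pos ⟨hn, h.symm⟩, if_pos h, map_one]; ring
  · rw [if_neg (fun h' => h h'.2.symm), if_neg h, map_zero]; ring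

/-- a function of the class -/
theorem cc_cls {f : O → ℂ} (h1 : ∀ n, ‖f n‖ ≤ 1) (h2 : ∀ n n', n ≠ 0 → n' ≠ 0 → cls n = cls n' → f n = f n') :
    ∃ ρ : Cl → ℂ, (∀ x, ‖ρ x‖ ≤ 1) ∧ ∀ n, n ≠ 0 → ρ (cls n) = f n := by
  classical
  refine ⟨fun x => if h : ∃ n : O, n ≠ 0 ∧ cls n = x then f h.choose else 0, fun x => ?_, fun n hn => ?_⟩
  · beta_reduce
    split_ifs
    · exact h1 _
    · simp
  · have h : ∃ n' : O, n' ≠ 0 ∧ cls n' = cls n := ⟨n, hn, rfl⟩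
    beta_reduce
    rw [dif_pos h]
    exact h2 _ _ h.choose_spec.1 hn h.choose_spec.2

section
variable {ψ : O → ℂ} {D : O}

/-- `ψ' n = ψ n · eps (B³) n` -/
theorem FB_le (h : Ok ψ D) {B : O} (hB : Prim B) :
    ∃ ψ' : O → ℂ, IsTw ψ' ∧ ∀ (a X t : ℝ) (v k : O),
      ‖FB (fd ψ D a X t v k) B‖ ^ 2 ≤ nm B * ‖Gm ψ' D a (X / nm B ^ 3) t v k‖ ^ 2 := by
  classical
  have hB3 : B ^ 3 ≠ 0 := pow_ne_zero 3 hB.ne_zero
  have hψ' : IsTw fun n => ψ n * eps (B ^ 3) n := h.tw.mul_eps _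
  refine ⟨fun n => ψ n * eps (B ^ 3) n, hψ', fun a X t v k => ?_⟩
  set K : ℂ := (Real.sqrt (nm B) : ℂ) * conj (cb 2 (B ^ 3)) * gam (B ^ 3) * al (B ^ 3) *
    ψ (B ^ 3) * one D (B ^ 3) * sx v (B ^ 3) * conj (sx k (B ^ 3)) with hK
  have hF : FB (fd ψ D a X t v k) B = K * Gm (fun n => ψ n * eps (B ^ 3) n) D a (X / nm B ^ 3) t v k := by
    rw [Gm_eq_FB hψ', FB, FB, ← tsum_mul_left]
    refine tsum_congr fun c => ?_
    have hc := (Pr_prim c).ne_zero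
    split_ifs with hs
    · rw [tau0_mul_cube _ hB, fd, cb_mul_right, gam_mul hc hB3, al_mul, h.tw.mul hc hB3,
        one_mul_right, cc_LN, sx_mul_right, sx_mul_right, map_mul, map_mul, eps_comm hc hB3]
      simp only [fd, hK, one_pow, mul_one]
      ring
    · rw [mul_zero]
  rw [hF]
  refine cc_sq (cc_norm (cc_norm (cc_norm (cc_norm (cc_norm (cc_norm (cc_norm (cc_sqrt B) ?_) ?_) ?_) ?_)
    ?_) ?_) ?_)
  · rw [Complex.norm_conj]; exact norm_cb_le _ _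
  · exact norm_gam_le _
  · exact norm_al_le _
  · exact h.tw.norm_le _
  · exact norm_one_le _ _
  · exact norm_sx_le _ _
  · rw [Complex.norm_conj]; exact norm_sx_le _ _

/-- `ρ (cls n) = conj (cb 2 n) · gam (n b³) · ψ n` -/
theorem GB_le (h : Ok ψ D) {b : O} (hb : Prim b) :
    ∃ ρ : Cl → ℂ, (∀ x, ‖ρ x‖ ≤ 1) ∧ ∀ (a X t : ℝ) (v k : O),
      ‖GB (fd ψ D a X t v k) b‖ ^ 2 ≤ nm b * ‖TT ρ a (X / nm b ^ 3) t (k * v ^ 5 * D ^ 6)‖ ^ 2 := by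
  have hb3 : b ^ 3 ≠ 0 := pow_ne_zero 3 hb.ne_zero
  obtain ⟨ρ, h1, h2⟩ := cc_cls (f := fun n => conj (cb 2 n) * gam (n * b ^ 3) * ψ n)
    (fun n => cc_norm (cc_norm (by rw [Complex.norm_conj]; exact norm_cb_le _ _) (norm_gam_le _)) (h.tw.norm_le n))
    fun n n' hn hn' e => by
      obtain ⟨σ, -, hσ⟩ := h.tw.ex
      rw [gam_cls (mul_ne_zero hn hb3) (mul_ne_zero hn' hb3) (by rw [cls_mul hn hb3, cls_mul hn' hb3, e]), hσ, hσ,
        Ab.cb, Ab.cb, sx_unit_left isUnit_two hn, sx_unit_left isUnit_two hn', e]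
  refine ⟨ρ, h1, fun a X t v k => ?_⟩
  set K : ℂ := (Real.sqrt (nm b) : ℂ) * conj (cb 2 (b ^ 3)) * al (b ^ 3) *
    ψ (b ^ 3) * one D (b ^ 3) * sx v (b ^ 3) * conj (sx k (b ^ 3)) with hK
  have hF : GB (fd ψ D a X t v k) b = K * TT ρ a (X / nm b ^ 3) t (k * v ^ 5 * D ^ 6) := by
    rw [GB, TT, ← tsum_mul_left]
    refine tsum_congr fun n => ?_
    have hn := (Pr_prim n).ne_zero
    rw [tau0_mul_cube _ hb, fd, cb_mul_right, al_mul, h.tw.mul hn hb3, one_mul_right, cc_LN, sx_mul_right,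
      sx_mul_right, map_mul, map_mul, h2 _ hn, cc_row hn, hK]
    ring
  rw [hF]
  refine cc_sq (cc_norm (cc_norm (cc_norm (cc_norm (cc_norm (cc_norm (cc_sqrt b) ?_) ?_) ?_) ?_) ?_) ?_)
  · rw [Complex.norm_conj]; exact norm_cb_le _ _
  · exact norm_al_le _
  · exact h.tw.norm_le _
  · exact norm_one_le _ _
  · exact norm_sx_le _ _
  · rw [Complex.norm_conj]; exact norm_sx_le _ _

end

end Crest.Agent.R27.Z.M1
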