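import Crest.Agent.R27.Z.LemP

/-!
Row 27, block M1 (port of `R17/M1` with `j = 0`): definitions.
All bounds are linear in `X`, for all `X > 0`.
-/

set_option autoImplicit false

namespace Crest.Agent.R27.Z.M1

open scoped ComplexConjugate
open Crest.Agent.R17 (LN)
open Crest.Agent.R27.Ab

variable [Bd]

/-- the price of a mask -/
noncomputable def w4 (D : O) : ℝ := 4 ^ (pfs D).card

/-- admissible data: character and mask -/
structure Ok (ψ : O → ℂ) (D : O) : Prop where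
  tw : IsTw ψ
  prim : Prim D

/-- the arithmetic part of the coefficients -/
noncomputable def cf (ψ : O → ℂ) (D : O) (n : O) : ℂ := mu n * ψ n * one D n

/-- the column coefficients -/
noncomputable def col (ψ : O → ℂ) (D : O) (a X t : ℝ) (n : O) : ℂ := cf ψ D n * LN a X t (nm n)

/-- the Möbius sum at the row `u` -/
noncomputable def Am (ψ : O → ℂ) (D : O) (a X t : ℝ) (u : O) : ℂ := Sp false (col ψ D a X t) u

/-- the dual sum at the row `h`, twisted by `χ(v)` -/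
noncomputable def Gm (ψ : O → ℂ) (D : O) (a X t : ℝ) (v h : O) : ℂ :=
  Sp true (fun m => col ψ D a X t m * gt m * sx v m) h

/-- primal bound without mask -/
def PB (a U X Λ C₁ : ℝ) : Prop :=
  ∀ (ψ : O → ℂ) (X' t : ℝ), Ok ψ 1 → 0 < X' → X' ≤ X →
    ∑ u ∈ rows U, ‖Am ψ 1 a X' t u‖ ^ 2 ≤ Λ * (1 + |t|) ^ C₁ * X'

/-- primal bound with masks -/
def MB (a U X Λ C₁ : ℝ) : Prop :=
  ∀ (ψ : O → ℂ) (D : O) (X' t : ℝ), Ok ψ D → 0 < X' → X' ≤ X →
    ∑ u ∈ rows U, ‖Am ψ D a X' t u‖ ^ 2 ≤ w4 D * Λ * (1 + |t|) ^ C₁ * X'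

/-- the dual moment: Möbius labels `i ∈ J`, rows `h` -/
noncomputable def DM (ψ : O → ℂ) (D : O) (a Y t : ℝ) (e : O) (J : Finset O) (H : ℝ) : ℝ :=
  ∑ i ∈ J, ∑ h ∈ rows H, ‖Gm ψ D a (Y / nm i) t (e * i ^ 2) h‖ ^ 2

/-- a dyadic block of primary elements -/
def Blk (J₀ : ℝ) (J : Finset O) : Prop := ∀ i ∈ J, Prim i ∧ J₀ ≤ nm i ∧ nm i ≤ 2 * J₀

/-- the ranges of the dual moments produced by the first Poisson summation -/
structure DC (T U X : ℝ) (e D : O) (Y J₀ H : ℝ) (J : Finset O) : Prop where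
  prim : Prim e
  le : nm e ≤ nm D
  Y_pos : 0 < Y
  Y_le : Y * nm D ≤ X
  J_ge : 1 ≤ J₀
  J_le : nm D * J₀ ≤ X * T
  H_ge : 1 ≤ H
  lo : T * Y ^ 2 * nm e ≤ H * U
  hi : H * U ≤ T * X ^ 2
  blk : Blk J₀ J

/-- dual bound -/
def DB (a T U X Λ C₁ : ℝ) : Prop :=
  ∀ (ψ : O → ℂ) (D : O) (t : ℝ) (e : O) (Y J₀ H : ℝ) (J : Finset O), Ok ψ D → DC T U X e D Y J₀ H J →
    DM ψ D a Y t e J H ≤ Λ * (1 + |t|) ^ C₁ * H

/-- the merged row of `(i, e₂, f₂, u)` -/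
noncomputable def row (e : O) (k : O × O × O × O) : O :=
  k.2.2.2 * (e * k.1 ^ 2) * k.2.1 * k.2.2.1 ^ 2

/-! ### cubes -/

open Classical in
/-- the part of `∑ tau0 n · f n` with cube part `B` -/
noncomputable def FB (f : O → ℂ) (B : O) : ℂ :=
  ∑' c : Pr, if Squarefree (c : O) then tau0 (c * B ^ 3) * f (c * B ^ 3) else 0

/-- the part of `∑ tau0 n · f n` with `b³ ∣ n` -/
noncomputable def GB (f : O → ℂ) (b : O) : ℂ := ∑' n : Pr, tau0 (n * b ^ 3) * f (n * b ^ 3)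

open Classical in
/-- truncated Möbius sum -/
noncomputable def gm (Θ : ℝ) (B : O) : ℂ := ∑ b ∈ ball Θ, if b ∣ B then mu b else 0

/-- the dual summand with `tau0` taken out -/
noncomputable def fd (ψ : O → ℂ) (D : O) (a X t : ℝ) (v h n : O) : ℂ :=
  conj (cb 2 n) * gam n * al n * ψ n * one D n * LN a X t (nm n) * sx v n * conj (sx h n)

/-- the small-cube part of the dual moment -/
noncomputable def DS1 (Θ : ℝ) (ψ : O → ℂ) (D : O) (a Y t : ℝ) (e : O) (J : Finset O) (H : ℝ) : ℝ :=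
  ∑ i ∈ J, ∑ h ∈ rows H, ‖∑ b ∈ ball Θ, mu b * GB (fd ψ D a (Y / nm i) t (e * i ^ 2) h) b‖ ^ 2

open Classical in
/-- the large-cube part of the dual moment -/
noncomputable def DS2 (Θ : ℝ) (ψ : O → ℂ) (D : O) (a Y t : ℝ) (e : O) (J : Finset O) (H : ℝ) : ℝ :=
  ∑ i ∈ J, ∑ h ∈ rows H,
    ‖∑' B : Pr, if Θ < nm B then gm Θ B * FB (fd ψ D a (Y / nm i) t (e * i ^ 2) h) B else 0‖ ^ 2

/-- dyadic index: `2 ^ blk n ≤ N n < 2 ^ (blk n + 1)` -/
noncomputable def blk (n : O) : ℕ := Nat.log 2 (nN n)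

end Crest.Agent.R27.Z.M1
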