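import Crest.Agent.R27.Z.M.Defs

/-!
Row 27, block M1: dyadic blocks, counting (`mink`, `norm_sum_sq_le`, `norm_add_sq_le`, `norm_sub_sq_le`, `nblk`,
`nblk_le` are those of `Crest.Agent.R17.M1`).
-/

set_option autoImplicit false

namespace Crest.Agent.R27.Z.M1

open scoped ComplexConjugate
open Crest.Agent.R17.M1 (nblk)
open Crest.Agent.R27.Ab

variable [Bd]

theorem blk_le {n : O} (hn : n ≠ 0) : (2 : ℝ) ^ blk n ≤ nm n := by
  have h := Nat.pow_log_le_self 2 (fun h => hn (nN_eq_zero.1 h))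
  unfold Ab.nm blk
  exact_mod_cast h

theorem lt_blk (n : O) : nm n < 2 * (2 : ℝ) ^ blk n := by
  have h := Nat.lt_pow_succ_log_self one_lt_two (nN n)
  rw [← pow_succ']
  unfold Ab.nm blk
  exact_mod_cast h

theorem blk_lt_nblk {n : O} {W : ℝ} (h : nm n ≤ W) : blk n < nblk W := by
  exact Nat.lt_succ_of_le (Nat.log_mono_right (Nat.le_floor h))

/-- `sum_inv_nm_le` -/
theorem sum_inv_le {δ : ℝ} (hδ : 0 < δ) : ∃ C : ℝ, 0 < C ∧ ∀ (W : ℝ) (A : Finset O), 1 ≤ W →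
    (∀ n ∈ A, Prim n ∧ nm n ≤ W) → ∑ n ∈ A, (nm n)⁻¹ ≤ C * W ^ δ := by
  have hc := cc_pos
  refine ⟨4 * cc * (1 + 1 / δ), by positivity, fun W A hW hA => (sum_inv_nm_le hW hA).trans ?_⟩
  have h3 := Real.log_le_rpow_div (zero_le_one.trans hW) hδ
  have h4 : 1 ≤ W ^ δ := Real.one_le_rpow hW hδ.le
  have h5 : W ^ δ / δ = 1 / δ * W ^ δ := by ring
  rw [mul_assoc (4 * cc)]
  refine mul_le_mul_of_nonneg_left ?_ (by positivity)
  linarith

theorem card_rows_le {H : ℝ} (hH : 0 ≤ H) : ((rows H).card : ℝ) ≤ cc * H := by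
  exact card_le_of_nm_le hH fun n hn => mem_rows.1 hn

theorem rows_mono {H H' : ℝ} (h : H ≤ H') : rows H ⊆ rows H' := by
  exact fun n hn => mem_rows.2 ⟨(mem_rows.1 hn).1, (mem_rows.1 hn).2.trans h⟩

theorem rows_eq_empty {H : ℝ} (h : H < 1) : rows H = ∅ := by
  refine Finset.eq_empty_of_forall_notMem fun n hn => ?_
  linarith [one_le_nm (mem_rows.1 hn).1.ne_zero, (mem_rows.1 hn).2]

theorem Blk.card_le {J₀ : ℝ} {J : Finset O} (h : Blk J₀ J) (hJ : 0 ≤ J₀) :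
    (J.card : ℝ) ≤ 2 * cc * J₀ := by
  have := card_le_of_nm_le (X := 2 * J₀) (by positivity) fun n hn =>
    ⟨(h n hn).1, (h n hn).2.2⟩
  linarith

theorem Blk.sum_inv_le {J₀ : ℝ} {J : Finset O} (h : Blk J₀ J) (hJ : 0 < J₀) :
    ∑ i ∈ J, (nm i)⁻¹ ≤ 2 * cc := by
  have h1 := Finset.sum_le_card_nsmul J (fun i => (nm i)⁻¹) J₀⁻¹ fun i hi =>
    inv_anti₀ hJ (h i hi).2.1
  rw [nsmul_eq_mul] at h1
  calc ∑ i ∈ J, (nm i)⁻¹ ≤ J.card * J₀⁻¹ := h1
    _ ≤ 2 * cc * J₀ * J₀⁻¹ := mul_le_mul_of_nonneg_right (h.card_le hJ.le) (by positivity)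
    _ = 2 * cc := by field_simp

theorem four_le_nm {p : O} (hp : Prime p) : 4 ≤ nm p := by
  have h1 := two_le_nm hp
  have h0 := dvd_nN p
  have h2 : nN p ≠ 2 := fun h => hp.not_isUnit (isUnit_of_dvd_unit (by rw [h] at h0; exact_mod_cast h0) isUnit_two)
  have h3 : nN p ≠ 3 := fun h => hp.not_isUnit (isUnit_of_dvd_unit (by rw [h] at h0; exact_mod_cast h0) isUnit_three)
  have h4 : 2 ≤ nN p := by
    unfold Ab.nm at h1
    exact_mod_cast h1
  have h5 : 4 ≤ nN p := by omega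
  unfold Ab.nm
  exact_mod_cast h5

theorem norm_one_le (D n : O) : ‖one D n‖ ≤ 1 := by
  unfold Ab.one
  split_ifs <;> simp

theorem one_mul_left (D D' n : O) : one (D * D') n = one D n * one D' n := by
  unfold Ab.one
  by_cases h : IsCoprime n D <;> by_cases h' : IsCoprime n D' <;>
    simp [h, h', IsCoprime.mul_right_iff]

theorem one_mul_right (D m n : O) : one D (m * n) = one D m * one D n := by
  unfold Ab.one
  by_cases h : IsCoprime m D <;> by_cases h' : IsCoprime n D <;>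
    simp [h, h', IsCoprime.mul_left_iff]

@[simp] theorem one_one (n : O) : one 1 n = 1 := by
  unfold Ab.one
  exact if_pos isCoprime_one_right

theorem one_le_w4 (n : O) : 1 ≤ w4 n := by
  exact one_le_pow₀ (by norm_num)

@[simp] theorem w4_one : w4 1 = 1 := by
  simp [w4, pra_pfs_one]

theorem w4_le {δ : ℝ} (hδ : 0 < δ) : ∃ C : ℝ, 0 < C ∧ ∀ n : O, n ≠ 0 → w4 n ≤ C * nm n ^ δ := by
  obtain ⟨C, hC, h⟩ := pow_card_pfs_le (4 : ℝ) hδ
  refine ⟨C, hC, fun n hn => ?_⟩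
  have := h n hn
  rwa [abs_of_nonneg (by positivity)] at this

end Crest.Agent.R27.Z.M1
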