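import Crest.Agent.R27.Z.M.Triv

/-!
Row 27, block M1: exact identities for the Möbius sums.
-/

set_option autoImplicit false

namespace Crest.Agent.R27.Z.M1

open scoped ComplexConjugate
open Crest.Agent.R17 (LN sj sj_false sj_true LN_mul_arg)
open Crest.Agent.R27.Ab

variable [Bd] {ψ : O → ℂ} {D : O} {a X : ℝ}

theorem idn_one {D n : O} (h : IsCoprime n D) : one D n = 1 := if_pos h

theorem idn_zero {D n : O} (h : ¬ IsCoprime n D) : one D n = 0 := if_neg h

theorem idn_mask {D D' u : O} (h : D' ∣ u) (n : O) :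
    one (D * D') n * sx u n = one D n * sx u n := by
  by_cases hc : IsCoprime n D'
  · rw [one_mul_left, idn_one hc, mul_one]
  · rw [sx_eq_zero_of_not_coprime fun h' => hc (h'.symm.of_isCoprime_of_dvd_right h), mul_zero, mul_zero]

open Classical in
theorem idn_hasSum {d : O} (hd : Prim d) {f : O → ℂ} {c : ℂ}
    (h : HasSum (fun m : Pr => f (d * m)) c) :
    HasSum (fun n : Pr => if d ∣ (n : O) then f n else 0) c := by
  have hi : Function.Injective fun m : Pr => (⟨d, hd⟩ * m : Pr) := fun m m' h =>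
    Subtype.ext (mul_left_cancel₀ hd.ne_zero (congrArg Subtype.val h))
  refine (hi.hasSum_iff (f := fun n : Pr => if d ∣ (n : O) then f n else 0) fun n hn => ?_).1 ?_
  · refine if_neg fun hdn => hn ?_
    obtain ⟨m, hm, e⟩ := hd.exists_mul n.2 hdn
    exact ⟨⟨m, hm⟩, Subtype.ext e.symm⟩
  · exact h.congr_fun fun m => if_pos (dvd_mul_right _ _)

theorem idn_sum (h : Ok ψ D) (ha : 0 < a) (hX : 0 < X) (t : ℝ) (u : O) :
    HasSum (fun n : Pr => col ψ D a X t n * sx u n) (Am ψ D a X t u) :=
  ((h.admP ha hX t).summable false u).hasSum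

/-- the factors at `p m` -/
theorem idn_mul (hψ : IsTw ψ) {p : O} (hp : Prime p) (t : ℝ) (u : O) {m : O} (hm : m ≠ 0) :
    mu (p * m) * ψ (p * m) * one D (p * m) * LN a X t (nm (p * m)) * sx u (p * m) =
      -(ψ p * one D p * sx u p) * (mu m * ψ m * one (D * p) m * LN a (X / nm p) t (nm m) * sx u m) := by
  rw [mu_mul', hψ.mul hp.ne_zero hm, one_mul_right, nm_mul, LN_mul_arg, sx_mul_right, one_mul_left]
  by_cases hc : IsCoprime p m
  · rw [if_pos hc, mu_prime hp, idn_one hc.symm]; ring
  · rw [if_neg hc, idn_zero (D := p) fun h => hc h.symm]; ring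

/-- a mask dividing the row is automatic (`sx_eq_zero_of_not_coprime`) -/
theorem Am_mask {D' u : O} (h : D' ∣ u) (t : ℝ) :
    Am ψ (D * D') a X t u = Am ψ D a X t u := by
  refine tsum_congr fun n => ?_
  simp only [col, cf, sj_false]
  linear_combination mu n * ψ n * LN a X t (nm n) * idn_mask (D := D) h n

theorem Gm_mask {D' v : O} (h : D' ∣ v) (t : ℝ) (k : O) :
    Gm ψ (D * D') a X t v k = Gm ψ D a X t v k := by
  refine tsum_congr fun n => ?_
  simp only [col, cf]
  linear_combination
    mu n * ψ n * LN a X t (nm n) * gt n * sj true (sx k n) * idn_mask (D := D) h n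

theorem Am_mask_dvd {p : O} (h : p ∣ D) (t : ℝ) (u : O) :
    Am ψ (D * p) a X t u = Am ψ D a X t u := by
  refine tsum_congr fun n => ?_
  have : one (D * p) n = one D n := by
    by_cases hc : IsCoprime (n : O) D
    · rw [one_mul_left, idn_one (hc.of_isCoprime_of_dvd_right h), mul_one]
    · rw [one_mul_left, idn_zero hc, zero_mul]
  simp only [col, cf, this]

/-- splitting off one prime: columns prime to `p` and columns `p m` -/
theorem Am_prime (h : Ok ψ D) (ha : 0 < a) (hX : 0 < X) {p : O}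
    (hp : Prime p) (hp' : Prim p) (hD : ¬ p ∣ D) (t : ℝ) (u : O) :
    Am ψ D a X t u = Am ψ (D * p) a X t u - ψ p * sx u p * Am ψ (D * p) a (X / nm p) t u := by
  classical
  have hY : 0 < X / nm p := div_pos hX (nm_pos hp.ne_zero)
  have ok : Ok ψ (D * p) := ⟨h.tw, h.prim.mul hp'⟩
  have h1 := idn_sum ok ha hX t u
  have h2 := (idn_sum ok ha hY t u).mul_left (-(ψ p * sx u p))
  have h3 := idn_hasSum hp' (f := fun n => col ψ D a X t n * sx u n) (h2.congr_fun fun m => by
    have e := idn_mul (D := D) (a := a) (X := X) h.tw hp t u (Pr_prim m).ne_zero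
    rw [idn_one (hp.coprime_iff_not_dvd.2 hD)] at e
    simp only [col, cf]
    linear_combination e)
  refine ((idn_sum h ha hX t u).unique ((h1.add h3).congr_fun fun n => ?_)).trans (by ring)
  simp only [col, cf, one_mul_left]
  by_cases hn : p ∣ (n : O)
  · rw [if_pos hn, idn_zero (D := p) fun hc => hp.not_isUnit (hc.isUnit_of_dvd' hn dvd_rfl)]; ring
  · rw [if_neg hn, idn_one (hp.coprime_iff_not_dvd.2 hn).symm]; ring

end Crest.Agent.R27.Z.M1
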