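import Crest.Agent.R27.Z.M.Step1a

/-!
Row 27, block M1: the first Poisson summation.
-/

set_option autoImplicit false

namespace Crest.Agent.R27.Z.M1

open Crest.Agent.R17 (LN exp_twist_le)
open Crest.Agent.R17.M1 (nblk nblk_le)
open Crest.Agent.R27.Ab

variable [Bd]

open Classical in
/-- regrouping of a sum over labels by `(e, f)` and the dyadic block of `i` -/
theorem st1_regroup {Y W M : ℝ} (hYW : Y ≤ W) (F : O × O × O → ℝ)
    (h : ∀ (e f : O) (J₀ : ℝ) (J : Finset O), 1 ≤ J₀ → Blk J₀ J → (∀ i ∈ J, (e, f, i) ∈ Lab Y) →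
      ∑ i ∈ J, F (e, f, i) ≤ M * ((nm e)⁻¹ * (nm f)⁻¹)) :
    ∑ l ∈ Lab Y, F l ≤ nblk W * M * (∑ e ∈ ball W, (nm e)⁻¹) ^ 2 := by
  have hsub : Lab Y ⊆ ball W ×ˢ ball W ×ˢ ball W := fun l hl => by
    have := (Finset.mem_filter.1 hl).1
    simp only [Finset.mem_product, mem_ball] at this ⊢
    exact ⟨⟨this.1.1, this.1.2.trans hYW⟩, ⟨this.2.1.1, this.2.1.2.trans hYW⟩, this.2.2.1, this.2.2.2.trans hYW⟩
  calc ∑ l ∈ Lab Y, F l = ∑ l ∈ ball W ×ˢ ball W ×ˢ ball W, if l ∈ Lab Y then F l else 0 := by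
        rw [Finset.sum_ite_mem, Finset.inter_eq_right.2 hsub]
    _ = ∑ e ∈ ball W, ∑ f ∈ ball W, ∑ i ∈ (ball W).filter (fun i => (e, f, i) ∈ Lab Y),
          F (e, f, i) := by
        rw [Finset.sum_product]
        refine Finset.sum_congr rfl fun e _ => ?_
        rw [Finset.sum_product]
        exact Finset.sum_congr rfl fun f _ => (Finset.sum_filter _ _).symm
    _ ≤ ∑ e ∈ ball W, ∑ f ∈ ball W, nblk W * (M * ((nm e)⁻¹ * (nm f)⁻¹)) := by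
        refine Finset.sum_le_sum fun e _ => Finset.sum_le_sum fun f _ => ?_
        rw [← Finset.sum_fiberwise_of_maps_to (t := Finset.range (nblk W)) (g := blk)
          fun i hi => Finset.mem_range.2 (blk_lt_nblk (mem_ball.1 (Finset.mem_filter.1 hi).1).2)]
        refine (Finset.sum_le_card_nsmul _ _ _ fun ν _ => h e f (2 ^ ν) _ (one_le_pow₀ one_le_two)
          (fun i hi => ?_) fun i hi => (Finset.mem_filter.1 (Finset.mem_filter.1 hi).1).2).trans_eq ?_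
        · obtain ⟨h1, h2⟩ := Finset.mem_filter.1 hi
          have h3 := (mem_Lab.1 (Finset.mem_filter.1 h1).2).2.2.1
          exact ⟨h3, h2 ▸ blk_le h3.ne_zero, h2 ▸ (lt_blk i).le⟩
        · rw [Finset.card_range, nsmul_eq_mul]
    _ = _ := by
        rw [sq, Finset.sum_mul_sum, Finset.mul_sum]
        refine Finset.sum_congr rfl fun e _ => ?_
        rw [Finset.mul_sum]
        exact Finset.sum_congr rfl fun f _ => by ring

/-- Recipe: `AdmP.sum_le_En`, `lemmaP` (`σ = δ / 4`, `A` from `tail_col_le`) for the one-point family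
`ι = Unit`, `K = U`, `T = Z^δ`; `l2_col_le`, `tail_col_le`.  Split the sum over `Lab (X T)` by
`(e, f, blk i) ∈ rows (Z²) ×ˢ rows (Z²) ×ˢ range (nblk (Z²))` (`Finset.sum_fiberwise_of_maps_to`),
`step1_blk` with `J₀ = 2 ^ ν` (`blk_le`, `lt_blk`), `sum_inv_le` twice, `nblk_le`, `exp_twist_le`. -/
theorem step1 {a δ C₁ : ℝ} (ha : 0 < a) (hδ : 0 < δ) (hδ1 : δ ≤ 1)
    (hC₁ : 0 ≤ C₁) : ∃ C : ℝ, 1 ≤ C ∧ ∀ (Z U X Λ : ℝ), 1 ≤ U → U ≤ Z → X ≤ Z → 0 ≤ Λ →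
      DB a (Z ^ δ) U X Λ C₁ → PB a U X (C * Z ^ (10 * δ) * (U + Λ)) C₁ := by
  obtain ⟨A, Ct, hA, hCt, Ht⟩ := tail_col_le ha hδ
  obtain ⟨Cd, hCd, Hl⟩ := l2_col_le ha hδ
  obtain ⟨Cp, hCp, Hp⟩ := lemmaP (δ / 4) (by positivity) A hA
  obtain ⟨Cb, hCb, Hb⟩ := step1_blk ha hδ hδ1
  obtain ⟨Cn, hCn, Hn⟩ := nblk_le hδ
  obtain ⟨Cs, hCs, Hs⟩ := sum_inv_le hδ
  obtain ⟨Ce, hCe, He⟩ := exp_twist_le C₁
  have hcE := cE_pos
  refine ⟨1 + cE * (Cp * Cd + Cp * (Cn * Cb * Cs ^ 2 * Ce) + Cp * Ct),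
    le_add_of_nonneg_right (by positivity), ?_⟩
  intro Z U X Λ hU hUZ hXZ hΛ hD ψ X' t hOk hX0 hX
  have hZ : 1 ≤ Z := hU.trans hUZ
  have hZ0 : 0 < Z := by linarith
  have hT : 1 ≤ Z ^ δ := Real.one_le_rpow hZ hδ.le
  have hT' : Z ^ δ ≤ Z := by simpa using Real.rpow_le_rpow_of_exponent_le hZ hδ1
  have hadm := hOk.admP ha hX0 t
  obtain ⟨τ, ρ, hρ, h1⟩ := Hp (Finset.univ : Finset Unit) false (fun _ => col ψ 1 a X' t)
    (fun _ => 1) (fun _ => U) (fun _ => X') (Z ^ δ) hT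
    (fun _ _ => ⟨hadm, zero_le_one, by linarith, hX0⟩)
  simp only [Finset.univ_unique, Finset.sum_singleton, one_mul, Bool.not_false] at h1
  have h2 := hadm.sum_le_En false (show 0 < U by linarith) (rows U) fun k hk => mem_rows.1 hk
  have hW : 1 ≤ Z * Z := by nlinarith
  have h3 := st1_regroup (Y := X' * Z ^ δ) (W := Z * Z)
    (mul_le_mul (hX.trans hXZ) hT' (by linarith) hZ0.le)
    (fun l => pre (δ / 4) U l * ∑ h ∈ rows (len U X' (Z ^ δ) l),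
      ‖Sp true (dual false (col ψ 1 a X' t) ρ ((δ / 4 : ℝ) + τ * Complex.I) l) h‖ ^ 2)
    fun e f J₀ J h₁ h₂ h₃ => Hb Z U X' X Λ C₁ ψ ρ t τ e f J₀ J hU hUZ hX0 hX hXZ hΛ hC₁ hOk hρ
      hD h₁ h₂ h₃
  have h4 := Hn _ hW
  have h5 := Hs _ (ball (Z * Z)) hW fun n hn => mem_ball.1 hn
  have h6 := He τ |t| (abs_nonneg t)
  have h7 := Hl Z ψ 1 X' t hOk hZ hX0 (hX.trans hXZ)
  have h8 := Ht Z ψ 1 X' t hOk hZ hX0 (hX.trans hXZ)
  have e1 : Z ^ (4 * δ) = (Z ^ δ) ^ 4 := by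
    rw [← Real.rpow_natCast, ← Real.rpow_mul hZ0.le, mul_comm]; norm_num
  have e2 : Z ^ (10 * δ) = (Z ^ δ) ^ 10 := by
    rw [← Real.rpow_natCast, ← Real.rpow_mul hZ0.le, mul_comm]; norm_num
  rw [Real.mul_rpow hZ0.le hZ0.le] at h4 h5
  rw [e1] at h3
  rw [e2]
  have hE : 1 ≤ (1 + |t|) ^ C₁ := Real.one_le_rpow (by linarith [abs_nonneg t]) hC₁
  have hE' : 0 ≤ (1 + |t| + |τ|) ^ C₁ := by positivity
  have hS0 : 0 ≤ ∑ e ∈ ball (Z * Z), (nm e)⁻¹ :=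
    Finset.sum_nonneg fun e _ => inv_nonneg.2 (nm_nonneg e)
  generalize Z ^ δ = T at *
  generalize (1 + |t|) ^ C₁ = E at *
  generalize (1 + |t| + |τ|) ^ C₁ = E' at *
  have hT0 : 0 < T := by linarith
  have hT10 : T ≤ T ^ 10 := le_self_pow₀ hT (by norm_num)
  have h9 := h3.trans (show _ ≤ Cn * (T * T) * (Cb * T ^ 4 * Λ * E' * X') * (Cs * (T * T)) ^ 2 by
    gcongr)
  have h10 := mul_le_mul_of_nonneg_left h9 (show 0 ≤ Cp * Real.exp (-|τ| / 2) by positivity)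
  have h11 : Cp * Real.exp (-|τ| / 2) * (Cn * (T * T) * (Cb * T ^ 4 * Λ * E' * X') *
      (Cs * (T * T)) ^ 2) ≤ Cp * (Cn * Cb * Cs ^ 2 * Ce) * (T ^ 10 * (U + Λ) * E * X') := by
    calc _ = Cp * (Cn * Cb * Cs ^ 2) * T ^ 10 * Λ * X' * (Real.exp (-|τ| / 2) * E') := by ring
      _ ≤ Cp * (Cn * Cb * Cs ^ 2) * T ^ 10 * (U + Λ) * X' * (Ce * E) := by gcongr; linarith
      _ = _ := by ring
  have h12 : U * l2 (col ψ 1 a X' t) ≤ Cd * (T ^ 10 * (U + Λ) * E * X') := by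
    calc _ ≤ U * (Cd * T * X') := by gcongr
      _ = Cd * (T * U * 1 * X') := by ring
      _ ≤ _ := by gcongr; linarith
  have h13 : Cp * tail A (col ψ 1 a X' t) X' T ≤ Cp * Ct * (T ^ 10 * (U + Λ) * E * X') := by
    calc _ ≤ Cp * (Ct * X') := by gcongr
      _ = Cp * Ct * (1 * 1 * 1 * X') := by ring
      _ ≤ _ := by gcongr <;> linarith
  have h14 : 0 ≤ T ^ 10 * (U + Λ) * E * X' := by positivity
  have h15 := mul_le_mul_of_nonneg_left h12 hCp.le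
  have h16 : En false (col ψ 1 a X' t) U ≤
      (Cp * Cd + Cp * (Cn * Cb * Cs ^ 2 * Ce) + Cp * Ct) * (T ^ 10 * (U + Λ) * E * X') := by
    linarith
  have h17 := mul_le_mul_of_nonneg_left h16 hcE.le
  unfold Am
  linarith

end Crest.Agent.R27.Z.M1
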