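import Crest.Agent.R27.Z.M.CubeC

/-!
Row 27, block M1: the small cubes (terminal case; port of `R17/M1/Term0`, `Term1`).
-/

set_option autoImplicit false

namespace Crest.Agent.R27.Z.M1

open Crest.Agent.R17.M1 (norm_sum_sq_le)
open Crest.Agent.R27.Ab

variable [Bd]

/-- `StF` for all `X > 0` -/
theorem term0 (hF : StF O) {a δ : ℝ} (ha : 0 < a) (hδ : 0 < δ) :
    ∃ C : ℝ, 1 ≤ C ∧ ∀ (Z K X t : ℝ) (ρ : Cl → ℂ) (A : Finset O), (∀ x, ‖ρ x‖ ≤ 1) → 1 ≤ K → K ≤ Z →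
      0 < X → X ≤ Z → (∀ k ∈ A, Prim k ∧ nm k ≤ K) →
      ∑ k ∈ A, ‖TT ρ a X t k‖ ^ 2 ≤ C * Z ^ δ * (1 + |t|) ^ C * (X * K + K ^ 2) := by
  obtain ⟨C₁, hC₁, h₁⟩ := norm_TT_le ha
  obtain ⟨C₂, h₂⟩ := hF a δ ha hδ
  have hc := cc_pos
  have h0 : 0 ≤ cc * C₁ ^ 2 := by positivity
  refine ⟨cc * C₁ ^ 2 + |C₂| + 1, by linarith [abs_nonneg C₂], fun Z K X t ρ A hρ hK hKZ hX hXZ hA => ?_⟩
  have hZ : 1 ≤ Z := hK.trans hKZ
  have ht : 1 ≤ 1 + |t| := by linarith [abs_nonneg t]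
  have := abs_nonneg C₂
  have := le_abs_self C₂
  rcases le_total X 1 with hX1 | hX1
  · have h4 := card_le_of_nm_le (by linarith : 0 ≤ K) hA
    calc _ ≤ ∑ _k ∈ A, (C₁ * X) ^ 2 := by
          gcongr with k
          exact h₁ ρ X t k hρ hX hX1
      _ = A.card * (C₁ * X) ^ 2 := by rw [Finset.sum_const, nsmul_eq_mul]
      _ ≤ cc * K * (C₁ * X) ^ 2 := by gcongr
      _ = cc * C₁ ^ 2 * X * 1 * (X * K) := by ring
      _ ≤ _ := by
        gcongr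
        · linarith
        · exact hX1.trans (Real.one_le_rpow hZ hδ.le)
        · exact Real.one_le_rpow ht (by linarith)
        · exact le_add_of_nonneg_right (sq_nonneg _)
  · refine (h₂ ρ Z K X t A hρ hK hKZ ((inv_le_one_of_one_le₀ hZ).trans hX1) hXZ hA).trans ?_
    gcongr <;> linarith

/-- For fixed `i, b` the rows `k = h (e i²)⁵ D⁶` are distinct, primary, of norm `≤ 1024 Θ^11 H`. -/
theorem term1 (hF : StF O) {a δ : ℝ} (ha : 0 < a) (hδ : 0 < δ) (hδ1 : δ ≤ 1) :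
    ∃ C : ℝ, 1 ≤ C ∧ ∀ (Z Θ U X : ℝ) (ψ : O → ℂ) (D : O) (t : ℝ) (e : O) (Y J₀ H : ℝ) (J : Finset O),
      Θ ≤ Z → 1 ≤ U → X ≤ U → U ≤ Z → Ok ψ D → DC (Z ^ δ) U X e D Y J₀ H J → nm D * J₀ ≤ Θ →
      DS1 Θ ψ D a Y t e J H ≤ C * Z ^ (2 * δ) * Θ ^ 40 * U * (1 + |t|) ^ C * H := by
  classical
  obtain ⟨C₀, hC₀, H₀⟩ := term0 hF ha (δ := δ / 13) (by positivity)
  have hcc := cc_pos
  set K₀ : ℝ := 2 * cc * (cc * (cc * (C₀ * 1024 ^ (δ / 13) * (2 * 1024 ^ 2)))) with hK₀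
  have hK0 : 0 ≤ K₀ := by positivity
  refine ⟨C₀ + K₀, by linarith, ?_⟩
  intro Z Θ U X ψ D t e Y J₀ H J hΘZ hU1 hXU hUZ hok hdc hDJ
  have hD1 := one_le_nm hok.prim.ne_zero
  have hJ1 := hdc.J_ge
  have hH1 := hdc.H_ge
  have hY := hdc.Y_pos
  have hDΘ : nm D ≤ Θ := (le_mul_of_one_le_right (nm_nonneg D) hJ1).trans hDJ
  have hJΘ : J₀ ≤ Θ := (le_mul_of_one_le_left (by linarith) hD1).trans hDJ
  have hΘ1 : 1 ≤ Θ := hJ1.trans hJΘ
  have hZ1 : 1 ≤ Z := hΘ1.trans hΘZ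
  have hT1 : 1 ≤ Z ^ δ := Real.one_le_rpow hZ1 hδ.le
  have hTZ : Z ^ δ ≤ Z := Real.rpow_le_self_of_one_le hZ1 hδ1
  have hYX : Y ≤ X := (le_mul_of_one_le_right hY.le hD1).trans hdc.Y_le
  have hX : 0 < X := hY.trans_le hYX
  have hHR : H ≤ Z ^ δ * U := by
    refine le_of_mul_le_mul_right ?_ (by linarith : 0 < U)
    calc H * U ≤ Z ^ δ * X ^ 2 := hdc.hi
      _ ≤ Z ^ δ * U ^ 2 := by gcongr
      _ = _ := by ring
  have hHZ : H ≤ Z ^ 2 := by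
    calc H ≤ Z ^ δ * U := hHR
      _ ≤ Z * Z := by gcongr
      _ = _ := by ring
  have hc1 : 1 ≤ 1024 * Θ ^ 11 := by nlinarith [one_le_pow₀ (n := 11) hΘ1]
  have hZZ : Z ≤ 1024 * Z ^ 13 := by nlinarith [le_self_pow₀ hZ1 (n := 13) (by norm_num)]
  have hKZ : 1024 * Θ ^ 11 * H ≤ 1024 * Z ^ 13 := by
    calc 1024 * Θ ^ 11 * H ≤ 1024 * Z ^ 11 * Z ^ 2 := by gcongr
      _ = _ := by ring
  have hZδ : (1024 * Z ^ 13) ^ (δ / 13) = 1024 ^ (δ / 13) * Z ^ δ := by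
    rw [Real.mul_rpow (by norm_num) (by positivity), ← Real.rpow_natCast, ← Real.rpow_mul (by linarith)]
    congr 2
    push_cast
    ring
  have ht1 : 1 ≤ 1 + |t| := by linarith [abs_nonneg t]
  set M : ℝ := C₀ * (1024 ^ (δ / 13) * Z ^ δ) * (1 + |t|) ^ C₀ *
    (2 * (1024 * Θ ^ 11) ^ 2 * Z ^ δ * (U * H)) with hM
  have hM0 : 0 ≤ M := by positivity
  -- one theta energy
  have key : ∀ i ∈ J, ∀ b, Prim b → ∀ ρ : Cl → ℂ, (∀ x, ‖ρ x‖ ≤ 1) →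
      ∑ h ∈ rows H, ‖TT ρ a (Y / nm i / nm b ^ 3) t (h * (e * i ^ 2) ^ 5 * D ^ 6)‖ ^ 2 ≤ M := by
    intro i hi b hb ρ hρ
    obtain ⟨hi1, -, hi3⟩ := hdc.blk i hi
    have hi0 := one_le_nm hi1.ne_zero
    have hb0 : 1 ≤ nm b ^ 3 := one_le_pow₀ (one_le_nm hb.ne_zero)
    have hp : Prim ((e * i ^ 2) ^ 5 * D ^ 6) := ((hdc.prim.mul (hi1.pow 2)).pow 5).mul (hok.prim.pow 6)
    have hX'0 : 0 < Y / nm i / nm b ^ 3 := by positivity
    have hX' : Y / nm i / nm b ^ 3 ≤ U :=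
      (div_le_self (by positivity) hb0).trans ((div_le_self hY.le hi0).trans (hYX.trans hXU))
    have hinj : Set.InjOn (fun h : O => h * (e * i ^ 2) ^ 5 * D ^ 6) (rows H) := fun x _ y _ hxy =>
      mul_right_cancel₀ hp.ne_zero (by simpa only [mul_assoc] using hxy)
    rw [← Finset.sum_image (f := fun k => ‖TT ρ a (Y / nm i / nm b ^ 3) t k‖ ^ 2) hinj]
    refine (H₀ (1024 * Z ^ 13) (1024 * Θ ^ 11 * H) _ t ρ _ hρ (one_le_mul_of_one_le_of_one_le hc1 hH1) hKZ hX'0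
      (hX'.trans (hUZ.trans hZZ)) fun k hk => ?_).trans ?_
    · obtain ⟨h, hh, rfl⟩ := Finset.mem_image.1 hk
      obtain ⟨hh0, hh1⟩ := mem_rows.1 hh
      refine ⟨by rw [mul_assoc]; exact hh0.mul hp, ?_⟩
      have h1 := hdc.le
      have h2 := nm_nonneg e
      have h3 := nm_nonneg i
      have h4 := nm_nonneg h
      rw [nm_mul, nm_mul, nm_pow, nm_pow, nm_mul, nm_pow]
      calc nm h * (nm e * nm i ^ 2) ^ 5 * nm D ^ 6
          ≤ H * (nm D * (2 * J₀) ^ 2) ^ 5 * nm D ^ 6 := by gcongr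
        _ = 1024 * ((nm D * J₀) ^ 10 * nm D) * H := by ring
        _ ≤ 1024 * (Θ ^ 10 * Θ) * H := by gcongr
        _ = _ := by ring
    · rw [hZδ, hM]
      refine mul_le_mul_of_nonneg_left ?_ (by positivity)
      generalize 1024 * Θ ^ 11 = c at hc1
      have t1 : Y / nm i / nm b ^ 3 * (c * H) ≤ c ^ 2 * Z ^ δ * (U * H) := by
        calc _ ≤ U * (c * H) := by gcongr
          _ = c * 1 * 1 * (U * H) := by ring
          _ ≤ c * c * Z ^ δ * (U * H) := by gcongr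
          _ = _ := by ring
      have t2 : (c * H) ^ 2 ≤ c ^ 2 * Z ^ δ * (U * H) := by
        calc _ = c ^ 2 * H * H := by ring
          _ ≤ c ^ 2 * H * (Z ^ δ * U) := by gcongr
          _ = _ := by ring
      linarith
  -- one cube divisor
  have key2 : ∀ i ∈ J, ∀ b ∈ ball Θ, ∑ h ∈ rows H,
      ‖mu b * GB (fd ψ D a (Y / nm i) t (e * i ^ 2) h) b‖ ^ 2 ≤ Θ * M := by
    intro i hi b hb
    obtain ⟨hb, hbΘ⟩ := mem_ball.1 hb
    obtain ⟨ρ, hρ, hG⟩ := GB_le hok hb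
    calc _ ≤ ∑ h ∈ rows H, nm b * ‖TT ρ a (Y / nm i / nm b ^ 3) t (h * (e * i ^ 2) ^ 5 * D ^ 6)‖ ^ 2 := by
          refine Finset.sum_le_sum fun h _ => le_trans ?_ (hG a _ t _ h)
          refine pow_le_pow_left₀ (norm_nonneg _) ?_ 2
          rw [norm_mul]
          exact mul_le_of_le_one_left (norm_nonneg _) (norm_mu_le b)
      _ ≤ _ := by
          rw [← Finset.mul_sum]
          exact mul_le_mul hbΘ (key i hi b hb ρ hρ) (Finset.sum_nonneg fun _ _ => by positivity) (by linarith)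
  have hcard : ((ball Θ).card : ℝ) ≤ cc * Θ := card_ball_le (by linarith)
  have hJ : (J.card : ℝ) ≤ 2 * cc * Θ := (hdc.blk.card_le (by linarith)).trans (by gcongr)
  have key3 : DS1 Θ ψ D a Y t e J H ≤ 2 * cc * Θ * (cc * Θ * (cc * Θ * (Θ * M))) := by
    unfold DS1
    refine (Finset.sum_le_card_nsmul _ _ (cc * Θ * (cc * Θ * (Θ * M))) fun i hi => ?_).trans ?_
    · refine (Finset.sum_le_sum fun h _ => norm_sum_sq_le _ _).trans ?_
      rw [← Finset.mul_sum, Finset.sum_comm]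
      refine mul_le_mul hcard ?_ (Finset.sum_nonneg fun _ _ => Finset.sum_nonneg fun _ _ =>
        by positivity) (by positivity)
      refine (Finset.sum_le_card_nsmul _ _ (Θ * M) (key2 i hi)).trans ?_
      rw [nsmul_eq_mul]
      exact mul_le_mul_of_nonneg_right hcard (by positivity)
    · rw [nsmul_eq_mul]
      exact mul_le_mul_of_nonneg_right hJ (by positivity)
  refine key3.trans ?_
  have h2δ : Z ^ (2 * δ) = Z ^ δ * Z ^ δ := by rw [two_mul, Real.rpow_add (by linarith)]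
  have hΘ40 : Θ ^ 26 ≤ Θ ^ 40 := pow_le_pow_right₀ hΘ1 (by norm_num)
  have htC : (1 + |t|) ^ C₀ ≤ (1 + |t|) ^ (C₀ + K₀) :=
    Real.rpow_le_rpow_of_exponent_le ht1 (by linarith)
  calc 2 * cc * Θ * (cc * Θ * (cc * Θ * (Θ * M)))
      = K₀ * Z ^ (2 * δ) * Θ ^ 26 * U * (1 + |t|) ^ C₀ * H := by rw [hM, hK₀, h2δ]; ring
    _ ≤ _ := by gcongr; linarith

end Crest.Agent.R27.Z.M1
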