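import Crest.Agent.R27.Z.M.Mask
import Crest.Agent.R27.Z.M.Cube
import Crest.Agent.R27.Z.M.Step1
import Crest.Agent.R27.Z.M.Term1
import Crest.Agent.R27.Z.M.Big

/-!
Row 27, block M1: the induction on the length.
-/

set_option autoImplicit false

namespace Crest.Agent.R27.Z

namespace M1

open Crest.Agent.R17 (sj sj_false sj_true)
open Crest.Agent.R17.M1 (norm_sub_sq_le)
open Crest.Agent.R27.Ab

variable [Bd]

/-- `Gm_eq_FB`, `cube`, `summable_fd`, `norm_sub_sq_le` -/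
theorem DM_le {a : ℝ} {ψ : O → ℂ} {D : O}
    (ha : 0 < a) (h : Ok ψ D) {Θ Y J₀ : ℝ} (hΘ : 1 ≤ Θ) (hY : 0 < Y)
    {J : Finset O} (hJ : Blk J₀ J) (t : ℝ) (e : O) (H : ℝ) :
    DM ψ D a Y t e J H ≤ 2 * DS1 Θ ψ D a Y t e J H + 2 * DS2 Θ ψ D a Y t e J H := by
  unfold DM DS1 DS2
  rw [Finset.mul_sum, Finset.mul_sum, ← Finset.sum_add_distrib]
  refine Finset.sum_le_sum fun i hi => ?_
  rw [Finset.mul_sum, Finset.mul_sum, ← Finset.sum_add_distrib]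
  refine Finset.sum_le_sum fun k _ => ?_
  have hX : 0 < Y / nm i := div_pos hY (nm_pos (hJ i hi).1.ne_zero)
  rw [Gm_eq_FB h.tw, cube (summable_fd h ha hX t _ k) hΘ]
  exact norm_sub_sq_le _ _

/-- the statement at depth `k` -/
def Lvl (k : ℕ) (a ε C C₁ : ℝ) : Prop :=
  ∀ (Z Θ U X : ℝ), 1 ≤ Θ → Θ ≤ Z → X ≤ Θ ^ k → X ≤ U → 1 ≤ U → U ≤ Z → PB a U X (C * Z ^ ε * Θ ^ 40 * U) C₁

/-- the dual bound at depth `k + 1`.  With `Λ₀ = C Z^ε Θ^40 ≥ 1`: if `Θ ≤ N D · J₀`, then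
`Y / J₀ ≤ X / (N D J₀) ≤ Θ^k`; `PB.mb`, `step2` with the same `U` (`N D ≤ X T ≤ Z²`).  Otherwise
`DM_le`, `term1`, `big` with `bigMB`. -/
theorem dual_step (hF : StF O) (k : ℕ) {a δ ε C C₁ : ℝ} (ha : 0 < a)
    (hδ : 0 < δ) (hδ1 : δ ≤ 1) (hε : 0 ≤ ε) (hC : 1 ≤ C) (hC₁ : 0 ≤ C₁)
    (h : Lvl k (2 * a) ε C C₁) : ∃ C' C₂ : ℝ, 1 ≤ C' ∧ 0 ≤ C₂ ∧
      ∀ (Z Θ U X : ℝ), 1 ≤ Θ → Θ ≤ Z → X ≤ Θ ^ (k + 1) → X ≤ U → 1 ≤ U → U ≤ Z →
        DB a (Z ^ δ) U X (C' * Z ^ (ε + 15 * δ) * Θ ^ 40 * U) C₂ := by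
  have ha2 : 0 < 2 * a := by positivity
  obtain ⟨Ca, hCa, H2⟩ := step2 ha hδ hδ1 hC₁
  obtain ⟨Cb, hCb, HT⟩ := term1 hF ha hδ hδ1
  obtain ⟨Cc, hCc, HB⟩ := big ha hδ hδ1 hC₁
  refine ⟨2 * Ca * C + 2 * Cb + 4 * Cc * C, max C₁ Cb, ?_, hC₁.trans (le_max_left _ _), ?_⟩
  · nlinarith [mul_pos (zero_lt_one.trans_le hCa) (zero_lt_one.trans_le hC),
      mul_pos (zero_lt_one.trans_le hCc) (zero_lt_one.trans_le hC)]
  intro Z Θ U X hΘ hΘZ hX hXU hU hUZ ψ D t e Y J₀ H J hok hdc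
  have hZ : 1 ≤ Z := hΘ.trans hΘZ
  have hZ0 : 0 < Z := zero_lt_one.trans_le hZ
  have hD : 1 ≤ nm D := one_le_nm hok.prim.ne_zero
  have hY := hdc.Y_pos
  have hJ := hdc.J_ge
  have hH := hdc.H_ge
  have hYX : Y ≤ X := (le_mul_of_one_le_right hY.le hD).trans hdc.Y_le
  have hX0 : 0 < X := hY.trans_le hYX
  set W : ℝ := Z ^ ε * Θ ^ 40 with hW
  have hZε : 1 ≤ Z ^ ε := Real.one_le_rpow hZ hε
  have hΘ40 : Θ ≤ Θ ^ 40 := le_self_pow₀ hΘ (by norm_num)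
  have hW40 : Θ ^ 40 ≤ W := le_mul_of_one_le_left (by positivity) hZε
  have hW1 : 1 ≤ W := hΘ.trans (hΘ40.trans hW40)
  set E : ℝ := Z ^ (15 * δ) with hE
  have hE0 : 0 < E := Real.rpow_pos_of_pos hZ0 _
  have ht : 1 ≤ 1 + |t| := le_add_of_nonneg_right (abs_nonneg t)
  set τ : ℝ := (1 + |t|) ^ max C₁ Cb with hτ
  have hτ1 : (1 + |t|) ^ C₁ ≤ τ := Real.rpow_le_rpow_of_exponent_le ht (le_max_left _ _)
  have hτ2 : (1 + |t|) ^ Cb ≤ τ := Real.rpow_le_rpow_of_exponent_le ht (le_max_right _ _)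
  have hτ0 : 0 < τ := Real.rpow_pos_of_pos (zero_lt_one.trans_le ht) _
  have hform : (2 * Ca * C + 2 * Cb + 4 * Cc * C) * Z ^ (ε + 15 * δ) * Θ ^ 40 * U * τ * H =
      (2 * Ca * C + 2 * Cb + 4 * Cc * C) * (E * W * U * τ * H) := by
    rw [Real.rpow_add hZ0, hW, hE]; ring
  rw [hform]
  have hQ : 0 < E * W * U * τ * H := by positivity
  have hCW : 1 ≤ C * W := one_le_mul_of_one_le_of_one_le hC hW1
  have hl : ∀ U' X' : ℝ, X' ≤ Θ ^ k → X' ≤ U' → 1 ≤ U' → U' ≤ Z → PB (2 * a) U' X' (C * W * U') C₁ := by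
    intro U' X' h2 h3 h4 h5
    have := h Z Θ U' X' hΘ hΘZ h2 h3 h4 h5
    rwa [mul_assoc C, ← hW] at this
  rcases le_total Θ (nm D * J₀) with hc | hc
  · have hYJ : Y / J₀ ≤ Θ ^ k := by
      rw [div_le_iff₀ (zero_lt_one.trans_le hJ)]
      have h1 : Y * nm D ≤ Θ ^ k * (nm D * J₀) := by
        refine hdc.Y_le.trans (hX.trans ?_)
        rw [pow_succ]
        exact mul_le_mul_of_nonneg_left hc (by positivity)
      have h2 : Y * nm D ≤ Θ ^ k * J₀ * nm D := by linarith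
      exact le_of_mul_le_mul_right h2 (zero_lt_one.trans_le hD)
    have hYJ' : Y / J₀ ≤ X := (div_le_self hY.le hJ).trans hYX
    have hmb := (hl U (Y / J₀) hYJ (hYJ'.trans hXU) hU hUZ).mb ha2 (by positivity)
    have hZδ : Z ^ δ ≤ Z := by simpa using Real.rpow_le_rpow_of_exponent_le hZ hδ1
    have hD2 : nm D ≤ Z ^ 2 := by
      calc nm D ≤ nm D * J₀ := le_mul_of_one_le_right (nm_nonneg D) hJ
        _ ≤ X * Z ^ δ := hdc.J_le
        _ ≤ Z * Z := mul_le_mul (hXU.trans hUZ) hZδ (by positivity) hZ0.le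
        _ = Z ^ 2 := (sq Z).symm
    have h2 := H2 Z U (C * W * U) ψ D t e Y J₀ H J hZ hUZ (by positivity) hok hdc.prim hD2 hY
      (hYX.trans (hXU.trans hUZ)) hJ hH hdc.lo hdc.blk hmb
    have h10 : Z ^ (10 * δ) ≤ E := Real.rpow_le_rpow_of_exponent_le hZ (by linarith)
    have hYle : Y + C * W * U ≤ 2 * (C * W * U) := by
      have : U ≤ C * W * U := le_mul_of_one_le_left (by positivity) hCW
      linarith
    calc DM ψ D a Y t e J H ≤ Ca * Z ^ (10 * δ) * (Y + C * W * U) * (1 + |t|) ^ C₁ * H := h2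
      _ ≤ Ca * E * (2 * (C * W * U)) * τ * H := by gcongr
      _ = 2 * Ca * C * (E * W * U * τ * H) := by ring
      _ ≤ _ := by
        refine mul_le_mul_of_nonneg_right ?_ hQ.le
        have : 0 ≤ 4 * Cc * C := by positivity
        linarith
  · have h1 := HT Z Θ U X ψ D t e Y J₀ H J hΘZ hU hXU hUZ hok hdc hc
    have h2 := HB Z Θ U X (C * W) ψ D t e Y J₀ H J hΘZ hU hXU hUZ hCW hok hdc hc
      fun β hβ => bigMB ha2 Z Θ U X (C * W) C₁ β k hΘ hβ hX hXU hU hUZ (by positivity) hl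
    have h3 := DM_le ha hok hΘ hY hdc.blk t e H
    have h2δ : Z ^ (2 * δ) ≤ E := Real.rpow_le_rpow_of_exponent_le hZ (by linarith)
    have h4 : Cb * Z ^ (2 * δ) * Θ ^ 40 * U * (1 + |t|) ^ Cb * H ≤ Cb * (E * W * U * τ * H) := by
      calc _ ≤ Cb * E * W * U * τ * H := by gcongr
        _ = _ := by ring
    have hΘΛ : Θ + C * W ≤ 2 * (C * W) := by
      have : W ≤ C * W := le_mul_of_one_le_left (by positivity) hC
      linarith
    have h5 : Cc * E * (Θ + C * W) * U * (1 + |t|) ^ C₁ * H ≤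
        2 * Cc * C * (E * W * U * τ * H) := by
      calc _ ≤ Cc * E * (2 * (C * W)) * U * τ * H := by gcongr
        _ = _ := by ring
    have h6 : 0 ≤ 2 * Ca * C * (E * W * U * τ * H) := by positivity
    linarith

/-- induction on `k`: `PB_base`; `dual_step` at `(2 a, ε / 2)`, `δ = min 1 (ε / 50)`, `step1` -/
theorem lvl (hF : StF O) (k : ℕ) : ∀ a ε : ℝ, 0 < a → 0 < ε →
    ∃ C C₁ : ℝ, 1 ≤ C ∧ 0 ≤ C₁ ∧ Lvl k a ε C C₁ := by
  induction k with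
  | zero =>
    intro a ε ha hε
    obtain ⟨C, hC, h⟩ := PB_base ha
    refine ⟨C, 0, hC, le_rfl, ?_⟩
    intro Z Θ U X hΘ hΘZ hX _ hU _
    have hZε : 1 ≤ Z ^ ε := Real.one_le_rpow (hΘ.trans hΘZ) hε.le
    have hΘ40 : 1 ≤ Θ ^ 40 := one_le_pow₀ hΘ
    refine (h U X (by positivity) (by simpa using hX)).mono le_rfl le_rfl
      (by positivity) ?_ le_rfl
    calc C * U = C * 1 * 1 * U := by ring
      _ ≤ _ := by gcongr
  | succ k ih =>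
    intro a ε ha hε
    obtain ⟨C, C₁, hC, hC₁, h⟩ := ih (2 * a) (ε / 2) (by positivity) (by positivity)
    set δ : ℝ := min 1 (ε / 50) with hδdef
    have hδ : 0 < δ := lt_min one_pos (by positivity)
    have hδ1 : δ ≤ 1 := min_le_left _ _
    have hδε : δ ≤ ε / 50 := min_le_right _ _
    obtain ⟨C', C₂, hC', hC₂, h'⟩ := dual_step hF k ha hδ hδ1 (by positivity) hC hC₁ h
    obtain ⟨C'', hC'', h''⟩ := step1 ha hδ hδ1 hC₂
    refine ⟨2 * (C'' * C'), C₂, by nlinarith [one_le_mul_of_one_le_of_one_le hC'' hC'], hC₂, ?_⟩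
    intro Z Θ U X hΘ hΘZ hX hXU hU hUZ
    have hZ : 1 ≤ Z := hΘ.trans hΘZ
    have hZ0 : 0 < Z := zero_lt_one.trans_le hZ
    have hXZ : X ≤ Z := hXU.trans hUZ
    refine (h'' Z U X _ hU hUZ hXZ (by positivity)
      (h' Z Θ U X hΘ hΘZ hX hXU hU hUZ)).mono le_rfl le_rfl (by positivity) ?_ le_rfl
    have h1 : 1 ≤ C' * Z ^ (ε / 2 + 15 * δ) * Θ ^ 40 :=
      one_le_mul_of_one_le_of_one_le (one_le_mul_of_one_le_of_one_le hC'
        (Real.one_le_rpow hZ (by positivity))) (one_le_pow₀ hΘ)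
    have h2 : U + C' * Z ^ (ε / 2 + 15 * δ) * Θ ^ 40 * U ≤
        2 * (C' * Z ^ (ε / 2 + 15 * δ) * Θ ^ 40 * U) := by
      have := le_mul_of_one_le_left (zero_le_one.trans hU) h1
      linarith
    have h3 : Z ^ (10 * δ) * Z ^ (ε / 2 + 15 * δ) ≤ Z ^ ε := by
      rw [← Real.rpow_add hZ0]
      exact Real.rpow_le_rpow_of_exponent_le hZ (by linarith)
    calc C'' * Z ^ (10 * δ) * (U + C' * Z ^ (ε / 2 + 15 * δ) * Θ ^ 40 * U)
        ≤ C'' * Z ^ (10 * δ) * (2 * (C' * Z ^ (ε / 2 + 15 * δ) * Θ ^ 40 * U)) := by gcongr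
      _ = 2 * (C'' * C') * (Z ^ (10 * δ) * Z ^ (ε / 2 + 15 * δ)) * Θ ^ 40 * U := by ring
      _ ≤ _ := by gcongr

/-- `Θ = Z^σ`, `σ = min 1 (ε / 80)`, `k σ ≥ 1` -/
theorem main (hF : StF O) {a ε : ℝ} (ha : 0 < a) (hε : 0 < ε) :
    ∃ C C₁ : ℝ, 1 ≤ C ∧ 0 ≤ C₁ ∧ ∀ Z U X : ℝ, X ≤ U → 1 ≤ U → U ≤ Z → PB a U X (C * Z ^ ε * U) C₁ := by
  set σ : ℝ := min 1 (ε / 80) with hσdef
  have hσ : 0 < σ := lt_min one_pos (by positivity)
  have hσ1 : σ ≤ 1 := min_le_left _ _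
  have hσε : σ ≤ ε / 80 := min_le_right _ _
  obtain ⟨k, hk⟩ := exists_nat_ge (1 / σ)
  have hkσ : 1 ≤ σ * k := by
    rw [div_le_iff₀ hσ] at hk
    linarith
  obtain ⟨C, C₁, hC, hC₁, h⟩ := lvl hF k a (ε / 2) ha (by positivity)
  refine ⟨C, C₁, hC, hC₁, ?_⟩
  intro Z U X hXU hU hUZ
  have hZ : 1 ≤ Z := hU.trans hUZ
  have hZ0 : 0 < Z := zero_lt_one.trans_le hZ
  have hZσ : 1 ≤ Z ^ σ := Real.one_le_rpow hZ hσ.le
  have hZσ' : Z ^ σ ≤ Z := by simpa using Real.rpow_le_rpow_of_exponent_le hZ hσ1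
  have hX : X ≤ (Z ^ σ) ^ k := by
    calc X ≤ Z := hXU.trans hUZ
      _ = Z ^ (1 : ℝ) := (Real.rpow_one Z).symm
      _ ≤ Z ^ (σ * k) := Real.rpow_le_rpow_of_exponent_le hZ hkσ
      _ = (Z ^ σ) ^ k := Real.rpow_mul_natCast hZ0.le σ k
  have h1 := h Z (Z ^ σ) U X hZσ hZσ' hX hXU hU hUZ
  refine h1.mono le_rfl le_rfl (by positivity) ?_ le_rfl
  have h2 : Z ^ (ε / 2) * (Z ^ σ) ^ 40 ≤ Z ^ ε := by
    rw [← Real.rpow_mul_natCast hZ0.le, ← Real.rpow_add hZ0]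
    refine Real.rpow_le_rpow_of_exponent_le hZ ?_
    push_cast
    linarith
  calc C * Z ^ (ε / 2) * (Z ^ σ) ^ 40 * U = C * (Z ^ (ε / 2) * (Z ^ σ) ^ 40) * U := by ring
    _ ≤ _ := by gcongr

theorem Am_one (a N t : ℝ) (u : O) : Am (fun _ => 1) 1 a N t u = MS (fun n => sx u n) a N t := by
  simp only [Am, Sp, MS, col, cf, one_one, sj_false]
  exact tsum_congr fun n => by ring

end M1

/-- block M1 -/
theorem stM [Bd] (hF : Ab.StF O) : StM := by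
  intro a ε ha hε
  obtain ⟨C, C₁, -, -, h⟩ := M1.main hF ha hε
  refine ⟨C, fun U X hU hX hXU => ?_⟩
  have h1 := h U U X hXU hU le_rfl (fun _ => 1) X 0 ⟨isTw_one, Ab.prim_one⟩ hX le_rfl
  simpa only [M1.Am_one, rows, abs_zero, add_zero, Real.one_rpow, mul_one] using h1

end Crest.Agent.R27.Z
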