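import Crest.Agent.R27.Z.M.Ident

/-!
Row 27, block M1: masks are free; children of a large cube.
-/

set_option autoImplicit false

namespace Crest.Agent.R27.Z.M1

open Crest.Agent.R17.M1 (mask_iter norm_add_sq_le)
open Crest.Agent.R27.Ab

variable [Bd]

theorem PB.mb {a U X Λ C₁ : ℝ} (ha : 0 < a) (h0 : 0 ≤ Λ) (h : PB a U X Λ C₁) : MB a U X Λ C₁ := by
  classical
  obtain ⟨C, -, hC⟩ := norm_Am_le ha
  intro ψ D X' t hok
  have hD := hok.prim
  revert ψ X' t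
  refine hD.induction (P := fun D => ∀ (ψ : O → ℂ) (X' t : ℝ), Ok ψ D → 0 < X' → X' ≤ X →
      ∑ u ∈ rows U, ‖Am ψ D a X' t u‖ ^ 2 ≤ w4 D * Λ * (1 + |t|) ^ C₁ * X') ?_ ?_
  · intro ψ X' t hok hX hX'
    rw [w4_one, one_mul]
    exact h ψ X' t hok hX hX'
  intro p D hp hp' hD ih ψ X' t hok hX hX'
  rw [mul_comm p D] at hok ⊢
  by_cases hpD : p ∣ D
  · have e : w4 (D * p) = w4 D := by
      rw [w4, w4, pfs_mul hD.ne_zero hp.ne_zero, pfs_prime hp hp', Finset.union_eq_left.2]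
      exact Finset.singleton_subset_iff.2 ((mem_pfs hD.ne_zero).2 ⟨hp, hp', hpD⟩)
    simp only [Am_mask_dvd hpD, e]
    exact ih ψ X' t ⟨hok.tw, hD⟩ hX hX'
  have e : w4 (D * p) = 4 * w4 D := by
    have hn : p ∉ pfs D := fun hm => hpD (pra_of_mem_pfs hm).2.2
    rw [w4, w4, pfs_mul hD.ne_zero hp.ne_zero, pfs_prime hp hp', Finset.union_singleton,
      Finset.card_insert_of_notMem hn, pow_succ']
  have hok₁ : Ok ψ D := ⟨hok.tw, hD⟩
  simp only [e]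
  have hB : 0 ≤ w4 D * Λ * (1 + |t|) ^ C₁ :=
    mul_nonneg (mul_nonneg (zero_le_one.trans (one_le_w4 D)) h0) (by positivity)
  have := mask_iter (fun Y => ∑ u ∈ rows U, ‖Am ψ (D * p) a Y t u‖ ^ 2)
    (c := (rows U).card * C ^ 2) (X := X) (four_le_nm hp) hB ?_ ?_ hX hX'
  · refine this.trans_eq ?_
    ring
  · intro Y hY hYX
    have h1 := ih ψ Y t hok₁ hY hYX
    calc ∑ u ∈ rows U, ‖Am ψ (D * p) a Y t u‖ ^ 2
        ≤ ∑ u ∈ rows U, (2 * ‖Am ψ D a Y t u‖ ^ 2 + 2 * ‖Am ψ (D * p) a (Y / nm p) t u‖ ^ 2) := by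
          refine Finset.sum_le_sum fun u _ => ?_
          have h2 := Am_prime hok₁ ha hY hp hp' hpD t u
          rw [eq_sub_iff_add_eq] at h2
          rw [← h2]
          refine (norm_add_sq_le _ _).trans ?_
          have h4 : ‖ψ p * sx u p * Am ψ (D * p) a (Y / nm p) t u‖ ≤ ‖Am ψ (D * p) a (Y / nm p) t u‖ := by
            rw [norm_mul, norm_mul]
            exact mul_le_of_le_one_left (norm_nonneg _)
              (mul_le_one₀ (hok.tw.norm_le p) (norm_nonneg _) (norm_sx_le u p))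
          gcongr
      _ ≤ _ := by
          rw [Finset.sum_add_distrib, ← Finset.mul_sum, ← Finset.mul_sum]
          linarith
  · intro Y hY hY1
    calc ∑ u ∈ rows U, ‖Am ψ (D * p) a Y t u‖ ^ 2 ≤ ∑ _u ∈ rows U, (C * Y) ^ 2 :=
          Finset.sum_le_sum fun u _ =>
            pow_le_pow_left₀ (norm_nonneg _) (hC ψ _ Y t u hok hY hY1) 2
      _ = _ := by rw [Finset.sum_const, nsmul_eq_mul]; ring

/-- Children of a large cube `β = N B > Θ`: enlarge the rows to `U / β³`. -/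
theorem bigMB {a : ℝ} (ha : 0 < a) (Z Θ U X Λ C₁ β : ℝ) (k : ℕ) (hΘ : 1 ≤ Θ) (hΘβ : Θ < β)
    (hX : X ≤ Θ ^ (k + 1)) (hXU : X ≤ U) (hU1 : 1 ≤ U) (hUZ : U ≤ Z) (hΛ : 0 ≤ Λ)
    (hyp : ∀ U' X' : ℝ, X' ≤ Θ ^ k → X' ≤ U' → 1 ≤ U' → U' ≤ Z → PB a U' X' (Λ * U') C₁) :
    MB a (U / β ^ 6) (X / β ^ 3) (Λ * U / β ^ 3) C₁ := by
  have hβ1 : 1 ≤ β := by linarith
  have hβ0 : 0 < β := by linarith
  have hU0 : 0 < U := by linarith
  by_cases hlt : U / β ^ 6 < 1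
  · exact MB.of_lt hlt (by positivity)
  have hβU : β ^ 6 ≤ U := by
    rw [not_lt, le_div_iff₀ (by positivity), one_mul] at hlt
    exact hlt
  have hden : 0 < β ^ 3 := by positivity
  have hden1 : 1 ≤ β ^ 3 := one_le_pow₀ hβ1
  have hden6 : β ^ 3 ≤ β ^ 6 := pow_le_pow_right₀ hβ1 (by norm_num)
  have h1 : X / β ^ 3 ≤ Θ ^ k := by
    rw [div_le_iff₀ (by positivity)]
    refine hX.trans ?_
    rw [pow_succ]
    exact mul_le_mul_of_nonneg_left (hΘβ.le.trans (le_self_pow₀ hβ1 (by norm_num))) (by positivity)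
  have h2 : X / β ^ 3 ≤ U / β ^ 3 := div_le_div_of_nonneg_right hXU hden.le
  have h3 : 1 ≤ U / β ^ 3 := by
    rw [le_div_iff₀ hden, one_mul]
    exact hden6.trans hβU
  have h4 : U / β ^ 3 ≤ Z := (div_le_self hU0.le hden1).trans hUZ
  have h0 : 0 ≤ Λ * (U / β ^ 3) := by positivity
  refine ((hyp _ _ h1 h2 h3 h4).mb ha h0).mono ?_ le_rfl h0 (le_of_eq (mul_div_assoc _ _ _).symm) le_rfl
  exact div_le_div_of_nonneg_left hU0.le hden hden6

end Crest.Agent.R27.Z.M1
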