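import Crest.Agent.R27.Z.M.Ident

/-!
Row 27, block M1: merging labels into the row.
-/

set_option autoImplicit false

namespace Crest.Agent.R27.Z.M1

open Crest.Agent.R17 (LN SS Adm sum_twist)
open Crest.Agent.R27.Ab

variable [Bd]

/-- `(i, e₂, f₂, u) ↦ row e k` has divisor multiplicity: `i, e₂, f₂ ∈ pdiv (row)`, and they determine
`u` (`Finset.sum_fiberwise_of_maps_to`, `Finset.card_le_card_of_injOn`, `card_pdiv_le`). -/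
theorem sum_row_le {δ : ℝ} (hδ : 0 < δ) : ∃ C : ℝ, 0 < C ∧ ∀ (Z U : ℝ) (e : O)
    (B : Finset (O × O × O × O)) (F : O → ℝ), 1 ≤ Z → U ≤ Z → Prim e → (∀ u, 0 ≤ F u) →
    (∀ k ∈ B, Prim k.1 ∧ Prim k.2.1 ∧ Prim k.2.2.1 ∧ Prim k.2.2.2 ∧ nm (row e k) ≤ U) →
    ∑ k ∈ B, F (row e k) ≤ C * Z ^ δ * ∑ u ∈ rows U, F u := by
  classical
  obtain ⟨C, hC, h⟩ := card_pdiv_le (show 0 < δ / 3 by positivity)
  refine ⟨C ^ 3, by positivity, fun Z U e B F hZ hU he hF hB => ?_⟩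
  have hrow : ∀ k ∈ B, row e k ∈ rows U := fun k hk => by
    obtain ⟨h1, h2, h3, h4, h5⟩ := hB k hk
    exact mem_rows.2 ⟨((h4.mul (he.mul (h1.pow 2))).mul h2).mul (h3.pow 2), h5⟩
  rw [← Finset.sum_fiberwise_of_maps_to hrow, Finset.mul_sum]
  refine Finset.sum_le_sum fun u hu => ?_
  obtain ⟨hu0, huU⟩ := mem_rows.1 hu
  replace hu0 := hu0.ne_zero
  rw [Finset.sum_congr rfl (g := fun _ => F u) fun k hk => by rw [(Finset.mem_filter.1 hk).2],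
    Finset.sum_const, nsmul_eq_mul]
  refine mul_le_mul_of_nonneg_right ?_ (hF u)
  have hc : (B.filter fun k => row e k = u).card ≤ (pdiv u ×ˢ pdiv u ×ˢ pdiv u).card := by
    refine Finset.card_le_card_of_injOn (fun k => (k.1, k.2.1, k.2.2.1)) (fun k hk => ?_)
      fun k hk k' hk' hkk => ?_
    · obtain ⟨hk1, hk2⟩ := Finset.mem_filter.1 (Finset.mem_coe.1 hk)
      obtain ⟨h1, h2, h3, h4, h5⟩ := hB k hk1
      refine Finset.mem_coe.2 (Finset.mem_product.2 ⟨(mem_pdiv hu0).2 ⟨h1, ?_⟩,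
        Finset.mem_product.2 ⟨(mem_pdiv hu0).2 ⟨h2, ?_⟩, (mem_pdiv hu0).2 ⟨h3, ?_⟩⟩⟩)
      · exact ⟨k.2.2.2 * (e * k.1) * k.2.1 * k.2.2.1 ^ 2, by rw [← hk2, row]; ring⟩
      · exact ⟨k.2.2.2 * (e * k.1 ^ 2) * k.2.2.1 ^ 2, by rw [← hk2, row]; ring⟩
      · exact ⟨k.2.2.2 * (e * k.1 ^ 2) * k.2.1 * k.2.2.1, by rw [← hk2, row]; ring⟩
    · obtain ⟨hk1, hk2⟩ := Finset.mem_filter.1 (Finset.mem_coe.1 hk)
      obtain ⟨-, hk2'⟩ := Finset.mem_filter.1 (Finset.mem_coe.1 hk')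
      obtain ⟨h1, h2, h3, h4, h5⟩ := hB k hk1
      obtain ⟨i, e₂, f₂, v⟩ := k
      obtain ⟨i', e₂', f₂', v'⟩ := k'
      simp only [Prod.mk.injEq] at hkk
      obtain ⟨rfl, rfl, rfl⟩ := hkk
      have := hk2.trans hk2'.symm
      simp only [row] at this h1 h2 h3
      rw [mul_right_cancel₀ (mul_ne_zero he.ne_zero (pow_ne_zero _ h1.ne_zero))
        (mul_right_cancel₀ h2.ne_zero (mul_right_cancel₀ (pow_ne_zero _ h3.ne_zero) this))]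
  have h1 : ((pdiv u).card : ℝ) ≤ C * Z ^ (δ / 3) :=
    (h u hu0).trans (mul_le_mul_of_nonneg_left
      (Real.rpow_le_rpow (nm_nonneg u) (huU.trans hU) (by positivity)) hC.le)
  have h2 : Z ^ δ = (Z ^ (δ / 3)) ^ 3 := by
    rw [← Real.rpow_natCast, ← Real.rpow_mul (by linarith)]
    congr 1
    push_cast
    ring
  calc ((B.filter fun k => row e k = u).card : ℝ) ≤ ((pdiv u).card : ℝ) ^ 3 := by
        rw [Finset.card_product, Finset.card_product] at hc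
        exact_mod_cast hc.trans_eq (by ring)
    _ ≤ (C * Z ^ (δ / 3)) ^ 3 := pow_le_pow_left₀ (Nat.cast_nonneg _) h1 3
    _ = _ := by rw [h2, mul_pow]

/-- `Am_eq_SS`, `Ok.adm`, `sum_twist` (`b = 2 a`, `m = C₁`, `D = 2 + a²`, `T = 0`, `g = 1`),
`sum_row_le`, `MB`. -/
theorem merge {a δ C₁ : ℝ} (ha : 0 < a) (hδ : 0 < δ) (hC₁ : 0 ≤ C₁) :
    ∃ C : ℝ, 0 < C ∧ ∀ (Z U X Λ : ℝ) (ψ : O → ℂ) (D : O)
      (t Y₀ : ℝ) (e : O) (B : Finset (O × O × O × O))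
      (Y : O × O × O × O → ℝ), 1 ≤ Z → U ≤ Z → 0 ≤ Λ → Ok ψ D → Prim e → 0 < Y₀ → Y₀ ≤ X →
      MB (2 * a) U X Λ C₁ →
      (∀ k ∈ B, Prim k.1 ∧ Prim k.2.1 ∧ Prim k.2.2.1 ∧ Prim k.2.2.2 ∧ nm (row e k) ≤ U) →
      (∀ k ∈ B, 0 < Y k ∧ |Real.log (Y k / Y₀)| ≤ 2 + a ^ 2) →
      ∑ k ∈ B, ‖Am ψ D a (Y k) t (row e k)‖ ^ 2 ≤
        C * Z ^ δ * w4 D * Λ * (1 + |t|) ^ C₁ * Y₀ := by
  obtain ⟨C₂, hC₂, h₂⟩ := sum_twist ha (show a < 2 * a by linarith) hC₁ (2 + a ^ 2)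
  obtain ⟨C₃, hC₃, h₃⟩ := sum_row_le hδ
  refine ⟨C₂ * C₃, by positivity,
    fun Z U X Λ ψ D t Y₀ e B Y hZ hU hΛ hOk he hY₀ hYX hMB hB hY => ?_⟩
  have key := h₂ B (fun _ => 1) (fun k (n : Pr) => cf ψ D n * sx (row e k) n)
    (fun _ n => nm n) (fun _ => 3) Y (fun _ => t) Y₀ t 0 (C₃ * Z ^ δ * (w4 D * Λ * Y₀)) hY₀ le_rfl
    (fun k hk => ⟨zero_le_one, hOk.adm _, (hY k hk).1, (hY k hk).2, by simp⟩) fun τ => by
      simp only [one_mul, ← Am_eq_SS]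
      refine (h₃ Z U e B (fun u => ‖Am ψ D (2 * a) Y₀ τ u‖ ^ 2) hZ hU he
        (fun _ => sq_nonneg _) hB).trans ?_
      refine (mul_le_mul_of_nonneg_left (hMB ψ D Y₀ τ hOk hY₀ hYX) (by positivity)).trans_eq ?_
      ring
  simp only [one_mul, ← Am_eq_SS, add_zero, mul_one] at key
  exact key.trans_eq (by ring)

end Crest.Agent.R27.Z.M1
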