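import Crest.Agent.R27.Z.M.Child

/-!
Row 27, block M1: the first Poisson summation, one block of labels.
-/

set_option autoImplicit false

namespace Crest.Agent.R27.Z.M1

open Crest.Agent.R17 (LN)
open Crest.Agent.R27.Ab

variable [Bd]

omit [Bd] in
theorem s1a_size {δ C Z U X E F I w : ℝ} (hδ : 0 < δ) (hδ1 : δ ≤ 1) (hC : 0 < C)
    (hU : 1 ≤ U) (hUZ : U ≤ Z) (hX : 0 < X) (hXZ : X ≤ Z) (hE : 1 ≤ E) (hF : 1 ≤ F) (hI : 1 ≤ I)
    (hN : E * F * I ≤ X * Z ^ δ) (hw0 : 0 ≤ w) (hw : w ≤ C * (E * F * I) ^ (δ / 4)) :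
    U / (E * I) * (E * I ^ 2 / U) ^ (δ / 4) * (w ^ 2 * (X / (E * F * I)) ^ (2 * (δ / 4) - 1)) ≤
      C ^ 2 * (Z ^ δ) ^ 3 * (U * F / X) := by
  have hZ : 1 ≤ Z := hU.trans hUZ
  have hZ0 : 0 < Z := by linarith
  have hTZ : Z ^ δ ≤ Z := by
    simpa using Real.rpow_le_rpow_of_exponent_le hZ hδ1
  have hEF : 1 ≤ E * F := one_le_mul_of_one_le_of_one_le hE hF
  have hN1 : 1 ≤ E * F * I := one_le_mul_of_one_le_of_one_le hEF hI
  have hN2 : E * F * I ≤ Z ^ 2 := by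
    rw [sq]; exact hN.trans (mul_le_mul hXZ hTZ (by positivity) hZ0.le)
  have h1 : (E * I ^ 2 / U) ^ (δ / 4) ≤ Z ^ δ := by
    have a1 : E * I ^ 2 / U ≤ Z ^ (4 : ℝ) := by
      have b1 : E * I ^ 2 / U ≤ E * I ^ 2 := div_le_self (by positivity) hU
      have b2 : E * I ^ 2 ≤ (E * F * I) ^ 2 := by
        rw [mul_pow]
        gcongr
        calc E ≤ E * F := le_mul_of_one_le_right (by positivity) hF
          _ ≤ (E * F) ^ 2 := le_self_pow₀ hEF two_ne_zero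
      have b3 : (E * F * I) ^ 2 ≤ (Z ^ 2) ^ 2 := by gcongr
      have b4 : (Z ^ 2) ^ 2 = Z ^ (4 : ℝ) := by
        rw [← pow_mul, ← Real.rpow_natCast]; norm_num
      exact ((b1.trans b2).trans b3).trans_eq b4
    calc (E * I ^ 2 / U) ^ (δ / 4) ≤ (Z ^ (4 : ℝ)) ^ (δ / 4) := by gcongr
      _ = Z ^ δ := by rw [← Real.rpow_mul hZ0.le]; congr 1; ring
  have h2 : w ^ 2 ≤ C ^ 2 * Z ^ δ := by
    have a1 : (E * F * I) ^ (δ / 4) ≤ Z ^ (δ / 2) := by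
      calc (E * F * I) ^ (δ / 4) ≤ (Z ^ 2) ^ (δ / 4) := by gcongr
        _ = Z ^ (δ / 2) := by
          rw [← Real.rpow_natCast, ← Real.rpow_mul hZ0.le]; congr 1; push_cast; ring
    calc w ^ 2 ≤ (C * Z ^ (δ / 2)) ^ 2 := by
          gcongr
          exact hw.trans (by gcongr)
      _ = C ^ 2 * Z ^ δ := by
          rw [mul_pow, ← Real.rpow_natCast (Z ^ (δ / 2)), ← Real.rpow_mul hZ0.le]
          congr 2; push_cast; ring
  have h3 : (X / (E * F * I)) ^ (2 * (δ / 4) - 1) ≤ Z ^ δ * (E * F * I / X) := by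
    rw [Real.rpow_sub (by positivity), Real.rpow_one, div_eq_mul_inv, inv_div]
    gcongr
    calc (X / (E * F * I)) ^ (2 * (δ / 4)) ≤ Z ^ (2 * (δ / 4)) := by
          gcongr
          exact (div_le_self hX.le hN1).trans hXZ
      _ ≤ Z ^ δ := Real.rpow_le_rpow_of_exponent_le hZ (by linarith)
  calc U / (E * I) * (E * I ^ 2 / U) ^ (δ / 4) * (w ^ 2 * (X / (E * F * I)) ^ (2 * (δ / 4) - 1))
      ≤ U / (E * I) * Z ^ δ * (C ^ 2 * Z ^ δ * (Z ^ δ * (E * F * I / X))) := by gcongr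
    _ = C ^ 2 * (Z ^ δ) ^ 3 * (U * F / X) := by field_simp

/-- One pair `(e, f)` and one dyadic block `J` of Möbius labels.  Recipe: if
`H = len U X T (e, f, i) = T X² / (U N e N f²) < 1` the rows are empty.  Otherwise `child_Gm` (mask
`1 * (e * f * i)`, remove `i` by `Gm_mask`), then `DB` for every `S' ⊆ S` with `D = e f`,
`Y = X exp (a² (σ - 1/2)) / N(e f)`, `σ = δ / 4`, twist `t + τ`, character `ψ ρ` (`IsTw.mul_dvd`).
Sizes: `pre ≤ U / (N e J₀) · Z^δ` (`N e N i² ≤ Z⁴`, `U ≥ 1`), `wj² ≤ C Z^δ`,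
`(X / N(e f i))^(2σ-1) ≤ Z^δ · 2 N e N f J₀ / X`; the product with `H` is `2 T X / (N e N f)`. -/
theorem step1_blk {a δ : ℝ} (ha : 0 < a) (hδ : 0 < δ) (hδ1 : δ ≤ 1) :
    ∃ C : ℝ, 0 < C ∧ ∀ (Z U X X₀ Λ C₁ : ℝ) (ψ ρ : O → ℂ) (t τ : ℝ) (e f : O) (J₀ : ℝ) (J : Finset O),
      1 ≤ U → U ≤ Z → 0 < X → X ≤ X₀ → X₀ ≤ Z → 0 ≤ Λ → 0 ≤ C₁ → Ok ψ 1 → IsTw ρ →
      DB a (Z ^ δ) U X₀ Λ C₁ → 1 ≤ J₀ → Blk J₀ J →
      (∀ i ∈ J, (e, f, i) ∈ Lab (X * Z ^ δ)) →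
      ∑ i ∈ J, pre (δ / 4) U (e, f, i) * ∑ h ∈ rows (len U X (Z ^ δ) (e, f, i)),
          ‖Sp true (dual false (col ψ 1 a X t) ρ ((δ / 4 : ℝ) + τ * Complex.I) (e, f, i)) h‖ ^ 2 ≤
        C * Z ^ (4 * δ) * Λ * (1 + |t| + |τ|) ^ C₁ * X * ((nm e)⁻¹ * (nm f)⁻¹) := by
  refine ⟨Real.exp (a ^ 2 / 4), by positivity, ?_⟩
  intro Z U X X₀ Λ C₁ ψ ρ t τ e f J₀ J hU hUZ hX hXX hXZ hΛ hC₁ hOk hρ hDB hJ₀ hJ hL
  have hZ : 1 ≤ Z := hU.trans hUZ
  have hZ0 : 0 < Z := by linarith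
  have hT : 0 < Z ^ δ := by positivity
  have hR : 0 ≤ Real.exp (a ^ 2 / 4) * Z ^ (4 * δ) * Λ *
      (1 + |t| + |τ|) ^ C₁ * X * ((nm e)⁻¹ * (nm f)⁻¹) := by
    have := nm_nonneg e
    have := nm_nonneg f
    positivity
  rcases J.eq_empty_or_nonempty with rfl | ⟨i₀, hi₀⟩
  · simpa only [Finset.sum_empty] using hR
  obtain ⟨he, hf, -, -, -, hN₀⟩ := mem_Lab.1 (hL i₀ hi₀)
  have hE := one_le_nm he.ne_zero
  have hF := one_le_nm hf.ne_zero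
  obtain ⟨H, hH⟩ : ∃ H, H = Z ^ δ * X ^ 2 / (U * nm e * nm f ^ 2) := ⟨_, rfl⟩
  have hlen : ∀ i, len U X (Z ^ δ) (e, f, i) = H := fun i => hH.symm
  simp only [hlen]
  by_cases hH1 : H < 1
  · simpa only [rows_eq_empty hH1, Finset.sum_empty, mul_zero, Finset.sum_const_zero] using hR
  push Not at hH1
  obtain ⟨E, hEdef⟩ : ∃ E, E = Real.exp (a ^ 2 * (δ / 4 - 1 / 2)) := ⟨_, rfl⟩
  have hE0 : 0 < E := hEdef ▸ Real.exp_pos _
  have hE1 : E ≤ 1 := by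
    rw [hEdef, Real.exp_le_one_iff]
    exact mul_nonpos_of_nonneg_of_nonpos (sq_nonneg a) (by linarith)
  have hHU : H * U = Z ^ δ * X ^ 2 / (nm e * nm f ^ 2) := by
    rw [hH]; field_simp
  have hDC : DC (Z ^ δ) U X₀ e (e * f) (X * E / (nm e * nm f)) J₀ H J := by
    refine ⟨he, ?_, by positivity, ?_, hJ₀, ?_, hH1, ?_, ?_, hJ⟩
    · rw [nm_mul]; exact le_mul_of_one_le_right (by positivity) hF
    · rw [nm_mul, div_mul_cancel₀ _ (by positivity)]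
      exact (mul_le_of_le_one_right hX.le hE1).trans hXX
    · rw [nm_mul _ i₀] at hN₀
      calc nm (e * f) * J₀ ≤ nm (e * f) * nm i₀ :=
            mul_le_mul_of_nonneg_left (hJ i₀ hi₀).2.1 (nm_nonneg _)
        _ ≤ X * Z ^ δ := hN₀
        _ ≤ X₀ * Z ^ δ := by gcongr
    · rw [hHU]
      calc Z ^ δ * (X * E / (nm e * nm f)) ^ 2 * nm e
          = Z ^ δ * X ^ 2 / (nm e * nm f ^ 2) * E ^ 2 := by field_simp
        _ ≤ Z ^ δ * X ^ 2 / (nm e * nm f ^ 2) :=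
          mul_le_of_le_one_right (by positivity) (pow_le_one₀ hE0.le hE1)
    · rw [hHU]
      calc Z ^ δ * X ^ 2 / (nm e * nm f ^ 2) ≤ Z ^ δ * X ^ 2 :=
            div_le_self (by positivity) (one_le_mul_of_one_le_of_one_le hE (one_le_pow₀ hF))
        _ ≤ Z ^ δ * X₀ ^ 2 := by gcongr
  have hDM : DM (fun n => ψ n * ρ n) (e * f) a (X * E / (nm e * nm f))
      (t + τ) e J H ≤ Λ * (1 + |t| + |τ|) ^ C₁ * H := by
    refine (hDB _ _ (t + τ) e _ J₀ H J ⟨hOk.tw.mul' hρ, he.mul hf⟩ hDC).trans ?_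
    have : 1 + |t + τ| ≤ 1 + |t| + |τ| := by linarith [abs_add_le t τ]
    have h0 : 0 ≤ H := by linarith
    gcongr
  obtain ⟨K, hK⟩ : ∃ K, K = Real.exp (a ^ 2 / 4) * (1 ^ 2 * (Z ^ δ) ^ 3 * (U * nm f / X)) := ⟨_, rfl⟩
  have hK0 : 0 ≤ K := by rw [hK]; positivity
  have hone : ∀ i ∈ J, pre (δ / 4) U (e, f, i) * ∑ h ∈ rows H,
      ‖Sp true (dual false (col ψ 1 a X t) ρ ((δ / 4 : ℝ) + τ * Complex.I) (e, f, i)) h‖ ^ 2 ≤
      K * ∑ h ∈ rows H, ‖Gm (fun n => ψ n * ρ n) (e * f) a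
        (X * E / (nm e * nm f) / nm i) (t + τ) (e * i ^ 2) h‖ ^ 2 := by
    intro i hi
    obtain ⟨-, -, hpi, hpr, -, hN⟩ := mem_Lab.1 (hL i hi)
    have hI := one_le_nm hpi.ne_zero
    have hsz := s1a_size (w := 1) (C := 1) hδ hδ1 one_pos hU hUZ hX (hXX.trans hXZ) hE hF hI
      (by simpa only [nm_mul] using hN) zero_le_one
      (by
        rw [one_mul]
        exact Real.one_le_rpow (one_le_mul_of_one_le_of_one_le (one_le_mul_of_one_le_of_one_le hE hF) hI)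
          (by positivity))
    rw [Finset.mul_sum, Finset.mul_sum]
    refine Finset.sum_le_sum fun h _ => ?_
    have hc := child_Gm hOk ha hX ρ (σ := δ / 4) (by positivity) (by linarith) t τ
      (l := (e, f, i)) hpr h
    have hm : Gm (fun n => ψ n * ρ n) (1 * (e * f * i)) a
        (X / nm (e * f * i) * Real.exp (a ^ 2 * (δ / 4 - 1 / 2))) (t + τ) (e * i ^ 2) h =
        Gm (fun n => ψ n * ρ n) (e * f) a
        (X * E / (nm e * nm f) / nm i) (t + τ) (e * i ^ 2) h := by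
      rw [one_mul, Gm_mask ((dvd_pow_self i two_ne_zero).mul_left e), ← hEdef, nm_mul, nm_mul]
      congr 1
      field_simp
    dsimp only at hc
    rw [hm] at hc
    refine (mul_le_mul_of_nonneg_left hc (pre_nonneg _ (by positivity) _)).trans ?_
    rw [← mul_assoc]
    refine mul_le_mul_of_nonneg_right ?_ (sq_nonneg _)
    rw [hK, nm_mul, nm_mul]
    refine le_of_eq_of_le ?_ (mul_le_mul_of_nonneg_left hsz (by positivity))
    simp only [pre]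
    ring
  refine (Finset.sum_le_sum hone).trans ?_
  rw [← Finset.mul_sum]
  refine (mul_le_mul_of_nonneg_left hDM hK0).trans_eq ?_
  have h6 : Z ^ (4 * δ) = (Z ^ δ) ^ 4 := by
    rw [← Real.rpow_natCast, ← Real.rpow_mul hZ0.le]; congr 1; push_cast; ring
  rw [hK, hH, h6]
  field_simp

end Crest.Agent.R27.Z.M1
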