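import Crest.Agent.R27.Z.M.Merge
import Crest.Agent.R27.Z.M.Child

/-!
Row 27, block M1: the second Poisson summation, one block of labels (port of `R17/M1/Step2a`).
-/

set_option autoImplicit false

namespace Crest.Agent.R27.Z.M1

open Crest.Agent.R17.M1 (s2a_sq s2a_pow s2a_coef s2a_log)
open Crest.Agent.R27.Ab

variable [Bd]

/-- One Möbius label `j₂` and one dyadic block `G ≤ N(e₂ f₂) ≤ 2 G`; `k = (i, e₂, f₂, u)`.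
Recipe: `σ = δ / 4`; `child_Am` (mask `D * (e₂ * f₂ * j₂) = (D * j₂) * (e₂ * f₂)`, remove `e₂ f₂` by
`Am_mask`), then `merge` with mask `D * j₂`, character `ψ ρ`, twist `t + τ`,
`Y₀ = Y / (J₀ G N j₂)`, `Y k = Y / N i / N(e₂ f₂ j₂) · exp (a² (σ - 1/2))` (the ratio lies in
`[exp (-a²/2) / 4, 1]`).  Row: `N(row) ≤ len · N e N i² N e₂ N f₂² = T Y² N e / H ≤ U`.
Sizes: `pre ≤ H / (N e₂ N j₂) · Z^δ` (`N e₂ N j₂² ≤ Z⁴`, `H ≥ 1`), 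
`(Y / N i / N(e₂ f₂ j₂))^(2σ-1) ≤ Z^δ · 2 J₀ N e₂ N f₂ N j₂ / Y`, `N f₂ ≤ 2 G`,
`w4 (D j₂) ≤ C (Z⁴)^(δ/4)`; the product with `Y₀` is `≤ 4 H / N j₂`. -/
theorem step2_blk {a δ C₁ : ℝ} (ha : 0 < a) (hδ : 0 < δ) (hδ1 : δ ≤ 1)
    (hC₁ : 0 ≤ C₁) : ∃ C : ℝ, 0 < C ∧ ∀ (Z U Λ : ℝ) (ψ ρ : O → ℂ) (D : O)
      (t τ : ℝ) (e : O) (Y J₀ H G : ℝ) (j₂ : O)
      (B : Finset (O × O × O × O)),
      1 ≤ Z → U ≤ Z → 0 ≤ Λ → Ok ψ D → IsTw ρ → Prim e → nm D ≤ Z ^ 2 → 0 < Y → Y ≤ Z →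
      1 ≤ J₀ → 1 ≤ H → 1 ≤ G → Z ^ δ * Y ^ 2 * nm e ≤ H * U → Prim j₂ →
      MB (2 * a) U (Y / J₀) Λ C₁ →
      (∀ k ∈ B, Prim k.1 ∧ J₀ ≤ nm k.1 ∧ nm k.1 ≤ 2 * J₀ ∧
        (k.2.1, k.2.2.1, j₂) ∈ Lab (Y / nm k.1 * Z ^ δ) ∧
        G ≤ nm (k.2.1 * k.2.2.1) ∧ nm (k.2.1 * k.2.2.1) ≤ 2 * G ∧
        k.2.2.2 ∈ rows (len H (Y / nm k.1) (Z ^ δ) (k.2.1, k.2.2.1, j₂))) →
      ∑ k ∈ B, pre (δ / 4) H (k.2.1, k.2.2.1, j₂) *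
          ‖Sp false (child (col ψ D a (Y / nm k.1) t) ρ ((δ / 4 : ℝ) + τ * Complex.I)
            (k.2.1, k.2.2.1, j₂)) (row e k)‖ ^ 2 ≤
        C * Z ^ (6 * δ) * Λ * (1 + |t| + |τ|) ^ C₁ * H * (nm j₂)⁻¹ := by
  classical
  obtain ⟨Cm, hCm, hmerge⟩ := merge ha hδ hC₁
  obtain ⟨Cw, hCw, hwj⟩ := wj_le (δ := δ / 4) (by positivity)
  obtain ⟨C4, hC4, hw4⟩ := w4_le (δ := δ / 4) (by positivity)
  set A : ℝ := Real.exp (a ^ 2 / 4) with hA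
  have hA0 : 0 < A := by positivity
  refine ⟨4 * A * Cw ^ 2 * (Cm * C4), by positivity, ?_⟩
  intro Z U Λ ψ ρ D t τ e Y J₀ H G j₂ B hZ hUZ hΛ hOk hρ he hD hY hYZ hJ₀ hH hG hlo hj₂ hMB hB
  have hZ0 : 0 < Z := lt_of_lt_of_le one_pos hZ
  have hH0 : 0 < H := lt_of_lt_of_le one_pos hH
  have hG0 : 0 < G := lt_of_lt_of_le one_pos hG
  have hJ₀0 : 0 < J₀ := lt_of_lt_of_le one_pos hJ₀
  have hJn : 1 ≤ nm j₂ := one_le_nm hj₂.ne_zero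
  have hJn0 : 0 < nm j₂ := lt_of_lt_of_le one_pos hJn
  rcases B.eq_empty_or_nonempty with rfl | ⟨k₀, hk₀⟩
  · rw [Finset.sum_empty]; positivity
  have hj2 : nm j₂ ≤ Z ^ 2 := by
    obtain ⟨b1, b2, -, b4, -⟩ := hB k₀ hk₀
    obtain ⟨-, -, -, hp, -, hle⟩ := mem_Lab.1 b4
    exact (nm_le_of_dvd (dvd_mul_left _ _) hp.ne_zero).trans
      (s2a_sq hδ1 hZ hY hYZ (hJ₀.trans b2) hle)
  have hw : w4 (D * j₂) ≤ C4 * Z ^ δ := by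
    refine (hw4 _ (hOk.prim.mul hj₂).ne_zero).trans
      (mul_le_mul_of_nonneg_left (s2a_pow hδ hZ (nm_nonneg _) ?_) hC4.le)
    rw [nm_mul]
    calc _ ≤ Z ^ 2 * Z ^ 2 := mul_le_mul hD hj2 hJn0.le (by positivity)
      _ = _ := by ring
  set Yk : O × O × O × O → ℝ := fun k =>
    Y / nm k.1 / nm (k.2.1 * k.2.2.1 * j₂) * Real.exp (a ^ 2 * (δ / 4 - 1 / 2)) with hYk
  set K : ℝ := 4 * A * Cw ^ 2 * (Z ^ δ) ^ 3 * (H * J₀ * G / Y) with hK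
  have hK0 : 0 ≤ K := by positivity
  -- termwise bound
  have hterm : ∀ k ∈ B, pre (δ / 4) H (k.2.1, k.2.2.1, j₂) *
        ‖Sp false (child (col ψ D a (Y / nm k.1) t) ρ ((δ / 4 : ℝ) + τ * Complex.I)
          (k.2.1, k.2.2.1, j₂)) (row e k)‖ ^ 2 ≤
      K * ‖Am (fun n => ψ n * ρ n) (D * j₂) a (Yk k) (t + τ) (row e k)‖ ^ 2 := by
    intro k hk
    obtain ⟨b1, b2, b3, b4, b5, b6, b7⟩ := hB k hk
    obtain ⟨c1, c2, -, hp, -, hle⟩ := mem_Lab.1 b4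
    have hX : 0 < Y / nm k.1 := div_pos hY (nm_pos b1.ne_zero)
    have h1 := child_Am hOk ha hX ρ (σ := δ / 4) (by positivity) (by linarith) t τ
      (l := (k.2.1, k.2.2.1, j₂)) hp (row e k)
    have hdv : k.2.1 * k.2.2.1 ∣ row e k :=
      ⟨k.2.2.2 * (e * k.1 ^ 2) * k.2.2.1, by unfold row; ring⟩
    have e1 : D * (k.2.1 * k.2.2.1 * j₂) = D * j₂ * (k.2.1 * k.2.2.1) := by ring
    simp only [e1, Am_mask hdv] at h1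
    have hpre : 0 ≤ pre (δ / 4) H (k.2.1, k.2.2.1, j₂) := by
      have := nm_nonneg k.2.1
      unfold pre; positivity
    refine (mul_le_mul_of_nonneg_left h1 hpre).trans ?_
    rw [← mul_assoc]
    refine mul_le_mul_of_nonneg_right ?_ (by positivity)
    have h2 := hwj _ hp.ne_zero
    rw [nm_mul] at b6
    rw [nm_mul, nm_mul] at hle h2
    have h3 := s2a_coef hδ hδ1 hZ hH (one_le_nm c1.ne_zero) (one_le_nm c2.ne_zero) hJn hY hYZ hJ₀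
      b2 b3 b6 hle zero_le_one hCw.le h2 hA0.le
    rw [one_pow, mul_one] at h3
    rw [nm_mul, nm_mul]
    exact h3
  -- merging
  have hY₀ : 0 < Y / (J₀ * G * nm j₂) := by positivity
  have hY₀' : Y / (J₀ * G * nm j₂) ≤ Y / J₀ := by
    refine div_le_div_of_nonneg_left hY.le hJ₀0 ?_
    rw [mul_assoc]
    exact le_mul_of_one_le_right hJ₀0.le (one_le_mul_of_one_le_of_one_le hG hJn)
  have hrow : ∀ k ∈ B, Prim k.1 ∧ Prim k.2.1 ∧ Prim k.2.2.1 ∧ Prim k.2.2.2 ∧ nm (row e k) ≤ U := by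
    intro k hk
    obtain ⟨b1, b2, b3, b4, b5, b6, b7⟩ := hB k hk
    obtain ⟨c1, c2, -⟩ := mem_Lab.1 b4
    obtain ⟨d1, d2⟩ := mem_rows.1 b7
    refine ⟨b1, c1, c2, d1, ?_⟩
    have p1 := nm_pos b1.ne_zero
    have p2 := nm_pos c1.ne_zero
    have p3 := nm_pos c2.ne_zero
    have p4 := nm_pos he.ne_zero
    have e2 : nm (row e k) = nm k.2.2.2 * (nm e * nm k.1 ^ 2 * nm k.2.1 * nm k.2.2.1 ^ 2) := by
      unfold row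
      simp only [nm_mul, nm_pow]; ring
    rw [e2]
    calc _ ≤ len H (Y / nm k.1) (Z ^ δ) (k.2.1, k.2.2.1, j₂) *
          (nm e * nm k.1 ^ 2 * nm k.2.1 * nm k.2.2.1 ^ 2) :=
          mul_le_mul_of_nonneg_right d2 (by positivity)
      _ = Z ^ δ * Y ^ 2 * nm e / H := by unfold len; field_simp
      _ ≤ U := by rw [div_le_iff₀ hH0, mul_comm U]; exact hlo
  have hlog : ∀ k ∈ B, 0 < Yk k ∧ |Real.log (Yk k / (Y / (J₀ * G * nm j₂)))| ≤ 2 + a ^ 2 := by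
    intro k hk
    obtain ⟨b1, b2, b3, b4, b5, b6, b7⟩ := hB k hk
    obtain ⟨-, -, -, hp, -⟩ := mem_Lab.1 b4
    have p1 := nm_pos b1.ne_zero
    have p2 := nm_pos hp.ne_zero
    refine ⟨by positivity, ?_⟩
    have := s2a_log (a := a) hδ hδ1 hY hJ₀0 b2 b3 hG0 b5 b6 hJn0
    rw [← nm_mul] at this
    exact this
  have hS :
      ∑ k ∈ B, ‖Am (fun n => ψ n * ρ n) (D * j₂) a (Yk k) (t + τ) (row e k)‖ ^ 2 ≤
        Cm * C4 * (Z ^ δ) ^ 2 * Λ * (1 + |t| + |τ|) ^ C₁ * (Y / (J₀ * G * nm j₂)) := by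
    have hOk' : Ok (fun n => ψ n * ρ n) (D * j₂) := ⟨hOk.tw.mul' hρ, hOk.prim.mul hj₂⟩
    refine (hmerge Z U (Y / J₀) Λ _ _ (t + τ) _ e B Yk hZ hUZ hΛ hOk' he hY₀ hY₀'
      hMB hrow hlog).trans ?_
    have h1 : (1 + |t + τ|) ^ C₁ ≤ (1 + |t| + |τ|) ^ C₁ :=
      Real.rpow_le_rpow (by positivity) (by have := abs_add_le t τ; linarith) hC₁
    calc _ ≤ Cm * Z ^ δ * (C4 * Z ^ δ) * Λ * (1 + |t| + |τ|) ^ C₁ * (Y / (J₀ * G * nm j₂)) := by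
          gcongr
      _ = _ := by ring
  have h56 : (Z ^ δ) ^ 5 ≤ Z ^ (6 * δ) := by
    rw [← Real.rpow_natCast, ← Real.rpow_mul hZ0.le]
    exact Real.rpow_le_rpow_of_exponent_le hZ (by push_cast; linarith)
  calc _ ≤ ∑ k ∈ B, K * ‖Am (fun n => ψ n * ρ n) (D * j₂) a (Yk k) (t + τ) (row e k)‖ ^ 2 :=
        Finset.sum_le_sum hterm
    _ = K * ∑ k ∈ B, ‖Am (fun n => ψ n * ρ n) (D * j₂) a (Yk k) (t + τ) (row e k)‖ ^ 2 := by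
        rw [← Finset.mul_sum]
    _ ≤ K * (Cm * C4 * (Z ^ δ) ^ 2 * Λ * (1 + |t| + |τ|) ^ C₁ * (Y / (J₀ * G * nm j₂))) :=
        mul_le_mul_of_nonneg_left hS hK0
    _ = 4 * A * Cw ^ 2 * (Cm * C4) * (Z ^ δ) ^ 5 * Λ * (1 + |t| + |τ|) ^ C₁ * H *
          (nm j₂)⁻¹ := by
        rw [hK]; field_simp
    _ ≤ _ := by gcongr

end Crest.Agent.R27.Z.M1
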