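import Crest.Agent.R27.Z.M.Elem

/-!
Row 27, block M1: trivial bounds and monotonicity.
-/

set_option autoImplicit false

namespace Crest.Agent.R27.Z.M1

open scoped ComplexConjugate
open Crest.Agent.R17 (LN SS Adm sj sj_false sj_true norm_LN_le_one)
open Crest.Agent.R17.M1 (triv_pow)
open Crest.Agent.R27.Ab

variable [Bd]

theorem wj_le {δ : ℝ} (hδ : 0 < δ) : ∃ C : ℝ, 0 < C ∧ ∀ n : O, n ≠ 0 → 1 ≤ C * nm n ^ δ :=
  ⟨1, one_pos, fun n hn => by rw [one_mul]; exact Real.one_le_rpow (one_le_nm hn) hδ.le⟩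

/-! ### trivial bounds -/

section
variable {ψ : O → ℂ} {D : O}

theorem Ok.norm_cf_le (h : Ok ψ D) (n : O) : ‖cf ψ D n‖ ≤ 1 := by
  rw [cf, norm_mul, norm_mul]
  have h1 := norm_mu_le n
  have h2 := h.tw.norm_le n
  have h3 := norm_one_le D n
  calc ‖mu n‖ * ‖ψ n‖ * ‖one D n‖ ≤ 1 * 1 * 1 := by gcongr
    _ = 1 := by ring

/-- `admP_LN` -/
theorem Ok.admP (h : Ok ψ D) {a X : ℝ} (ha : 0 < a) (hX : 0 < X) (t : ℝ) :
    AdmP (col ψ D a X t) := by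
  obtain ⟨C, -, hC⟩ := wj_le one_pos
  refine admP_LN (c := cf ψ D) (M := C) (θ := 1) ha hX t (fun n _ h0 => ?_)
    fun n hn => (h.norm_cf_le n).trans (hC n hn.ne_zero)
  rw [cf] at h0
  have h1 := left_ne_zero_of_mul (left_ne_zero_of_mul h0)
  exact by_contra fun hs => h1 (mu_eq_zero.2 hs)

theorem Am_eq_SS (ψ : O → ℂ) (D : O) (a X t : ℝ) (u : O) :
    Am ψ D a X t u = SS (fun n : Pr => cf ψ D n * sx u n) (fun n => nm n) a X t := by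
  simp only [Am, Sp, SS, col, sj_false]
  exact tsum_congr fun n => by ring

/-- `adm_O` -/
theorem Ok.adm (h : Ok ψ D) (u : O) :
    Adm (fun n : Pr => cf ψ D n * sx u n) (fun n => nm n) 3 := by
  obtain ⟨C, hC0, hC⟩ := wj_le one_pos
  obtain ⟨C', -, H⟩ := adm_O (θ := 1) (σ := 3) (by norm_num)
  refine (H (fun n : Pr => (n : O)) (fun n : Pr => cf ψ D n * sx u n) C Subtype.val_injective
    (fun n hn => absurd (Pr_prim n) hn) (fun n hn => ?_) hC0.le).1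
  rw [norm_mul]
  exact (mul_le_of_le_one_right (norm_nonneg _) (norm_sx_le _ _)).trans
    ((h.norm_cf_le n).trans (hC n hn.ne_zero))

end

/-- `sum_LN_O` at the exponent `θ + δ` -/
theorem col_sum_le {a δ : ℝ} (ha : 0 < a) (hδ : 0 < δ) (θ : ℝ) :
    ∃ C : ℝ, 0 < C ∧ ∀ (ψ : O → ℂ) (D : O)
      (X t : ℝ), Ok ψ D → 0 < X →
      ∑' n : Pr, ‖col ψ D a X t n‖ * nm n ^ θ ≤ C * X ^ (1 + θ + δ) := by
  obtain ⟨C, hC0, hC⟩ := wj_le hδ
  obtain ⟨C', hC', H⟩ := sum_LN_O ha (θ + δ)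
  refine ⟨C' * C, by positivity, fun ψ D X t h hX => ?_⟩
  have h1 := (H (fun n : Pr => (n : O)) (fun n : Pr => cf ψ D n * ((nm n ^ θ : ℝ) : ℂ)) C X t
    Subtype.val_injective (fun n hn => absurd (Pr_prim n) hn) (fun n hn => by
      have h0 := nm_pos hn.ne_zero
      rw [norm_mul, Complex.norm_real, Real.norm_of_nonneg (by positivity), Real.rpow_add h0]
      calc ‖cf ψ D n‖ * nm n ^ θ ≤ C * nm n ^ δ * nm n ^ θ := by
            gcongr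
            exact (h.norm_cf_le n).trans (hC n hn.ne_zero)
        _ = _ := by ring) hC0.le hX).2
  rw [show 1 + θ + δ = θ + δ + 1 by ring]
  refine le_of_eq_of_le (tsum_congr fun n => ?_) h1
  have h0 := nm_pos (Pr_prim n).ne_zero
  rw [col, norm_mul, norm_mul, norm_mul, Complex.norm_real, Real.norm_of_nonneg (by positivity)]
  ring

theorem norm_Am_le {a : ℝ} (ha : 0 < a) :
    ∃ C : ℝ, 0 < C ∧ ∀ (ψ : O → ℂ) (D : O)
      (X t : ℝ) (u : O), Ok ψ D → 0 < X → X ≤ 1 →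
      ‖Am ψ D a X t u‖ ≤ C * X := by
  obtain ⟨C, hC, H⟩ := col_sum_le ha one_pos 0
  refine ⟨C, hC, fun ψ D X t u h hX hX1 => ?_⟩
  have h1 := H ψ D X t h hX
  have h2 := (h.admP ha hX t).dec 0
  have h3 : ∀ n : Pr, ‖col ψ D a X t n * sj false (sx u n)‖ ≤
      ‖col ψ D a X t n‖ * nm n ^ (0 : ℝ) := fun n => by
    rw [norm_mul, Real.rpow_zero, sj_false]
    exact mul_le_mul_of_nonneg_left (norm_sx_le _ _) (norm_nonneg _)
  refine (tsum_of_norm_bounded h2.hasSum h3).trans (h1.trans ?_)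
  refine mul_le_mul_of_nonneg_left ?_ hC.le
  calc X ^ (1 + 0 + 1 : ℝ) ≤ X ^ (1 : ℝ) := Real.rpow_le_rpow_of_exponent_ge hX hX1 (by norm_num)
    _ = X := Real.rpow_one X

/-- `‖col n‖² ≤ C N(n)^(δ/2) ‖col n‖` -/
theorem l2_col_le {a δ : ℝ} (ha : 0 < a) (hδ : 0 < δ) :
    ∃ C : ℝ, 0 < C ∧ ∀ (Z : ℝ) (ψ : O → ℂ) (D : O)
      (X t : ℝ), Ok ψ D → 1 ≤ Z → 0 < X → X ≤ Z →
      l2 (col ψ D a X t) ≤ C * Z ^ δ * X := by
  obtain ⟨C, hC, H⟩ := col_sum_le ha (half_pos hδ) (δ / 2)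
  obtain ⟨C', hC', H'⟩ := wj_le (half_pos hδ)
  refine ⟨C' * C, by positivity, fun Z ψ D X t h hZ hX hXZ => ?_⟩
  have h1 := H ψ D X t h hX
  have h2 := ((h.admP ha hX t).dec (δ / 2)).mul_left C'
  have h3 : ∀ n : Pr, ‖col ψ D a X t n‖ ^ 2 ≤
      C' * (‖col ψ D a X t n‖ * nm n ^ (δ / 2)) := fun n => by
    have h4 : ‖col ψ D a X t n‖ ≤ C' * nm n ^ (δ / 2) := by
      rw [col, norm_mul]
      exact (mul_le_of_le_one_right (norm_nonneg _) (norm_LN_le_one _ _ _ _)).trans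
        ((h.norm_cf_le n).trans (H' n (Pr_prim n).ne_zero))
    calc ‖col ψ D a X t n‖ ^ 2 = ‖col ψ D a X t n‖ * ‖col ψ D a X t n‖ := sq _
      _ ≤ ‖col ψ D a X t n‖ * (C' * nm n ^ (δ / 2)) := by gcongr
      _ = _ := by ring
  have h5 : l2 (col ψ D a X t) ≤ C' * ∑' n : Pr, ‖col ψ D a X t n‖ * nm n ^ (δ / 2) := by
    rw [l2, ← tsum_mul_left]
    exact (h2.of_nonneg_of_le (fun n => by positivity) h3).tsum_le_tsum h3 h2
  refine h5.trans ?_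
  rw [show 1 + δ / 2 + δ / 2 = δ + 1 by ring, Real.rpow_add hX, Real.rpow_one] at h1
  calc C' * ∑' n : Pr, ‖col ψ D a X t n‖ * nm n ^ (δ / 2) ≤ C' * (C * (X ^ δ * X)) := by gcongr
    _ ≤ C' * (C * (Z ^ δ * X)) := by gcongr
    _ = _ := by ring

/-- take `δ (A - 1) ≥ 6`; `col_sum_le` with `θ = A`, `δ = 1` -/
theorem tail_col_le {a δ : ℝ} (ha : 0 < a) (hδ : 0 < δ) :
    ∃ (A : ℕ) (C : ℝ), 2 ≤ A ∧ 0 < C ∧ ∀ (Z : ℝ) (ψ : O → ℂ) (D : O)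
      (X t : ℝ), Ok ψ D → 1 ≤ Z → 0 < X → X ≤ Z →
      tail A (col ψ D a X t) X (Z ^ δ) ≤ C * X := by
  obtain ⟨A, hA⟩ := exists_nat_ge (6 / δ + 2)
  have hA6 : 6 / δ ≤ (A : ℝ) - 1 := by linarith
  have hA2 : (2 : ℝ) ≤ A := by
    have : 0 < 6 / δ := by positivity
    linarith
  obtain ⟨C, hC, H⟩ := col_sum_le ha one_pos (A : ℝ)
  refine ⟨A, 8 * C ^ 2, by exact_mod_cast hA2, by positivity,
    fun Z ψ D X t h hZ hX hXZ => ?_⟩
  have hZ0 : 0 < Z := by linarith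
  have h1 := H ψ D X t h hX
  have h2 : ∑' n : Pr, ‖col ψ D a X t n‖ * (nm n / X) ^ A ≤ C * X ^ 2 := by
    have e1 : ∀ n : Pr, ‖col ψ D a X t n‖ * (nm n / X) ^ A =
        ‖col ψ D a X t n‖ * nm n ^ (A : ℝ) * (X ^ A)⁻¹ := fun n => by
      rw [Real.rpow_natCast, div_pow, div_eq_mul_inv, mul_assoc]
    simp only [e1, tsum_mul_right]
    rw [show 1 + (A : ℝ) + 1 = ((A + 2 : ℕ) : ℝ) by push_cast; ring, Real.rpow_natCast,
      pow_add] at h1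
    rw [← div_eq_mul_inv, div_le_iff₀ (by positivity)]
    exact h1.trans (le_of_eq (by ring))
  have h3 : 0 ≤ ∑' n : Pr, ‖col ψ D a X t n‖ * (nm n / X) ^ A :=
    tsum_nonneg fun n => by
      have := nm_nonneg (n : O)
      positivity
  have h4 : Z ^ δ / (Z ^ δ) ^ A ≤ (Z ^ 6)⁻¹ := by
    rw [← Real.rpow_natCast, ← Real.rpow_mul hZ0.le, ← Real.rpow_sub hZ0, ← Real.rpow_natCast,
      ← Real.rpow_neg hZ0.le]
    refine Real.rpow_le_rpow_of_exponent_le hZ ?_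
    rw [div_le_iff₀ hδ] at hA6
    push_cast
    linarith
  have h5 : (1 + X) ^ 3 ≤ (2 * Z) ^ 3 := by
    gcongr
    linarith
  have h6 : X ^ 3 ≤ Z ^ 3 := by gcongr
  rw [tail]
  calc Z ^ δ / (Z ^ δ) ^ A * (1 + X) ^ 3 *
        (∑' n : Pr, ‖col ψ D a X t n‖ * (nm n / X) ^ A) ^ 2
      ≤ (Z ^ 6)⁻¹ * (2 * Z) ^ 3 * (C * X ^ 2) ^ 2 := by gcongr
    _ = (Z ^ 6)⁻¹ * (2 * Z) ^ 3 * (C ^ 2 * X * X ^ 3) := by ring
    _ ≤ (Z ^ 6)⁻¹ * (2 * Z) ^ 3 * (C ^ 2 * X * Z ^ 3) := by gcongr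
    _ = 8 * C ^ 2 * X := by field_simp; norm_num

/-- the base of the induction -/
theorem PB_base {a : ℝ} (ha : 0 < a) : ∃ C : ℝ, 1 ≤ C ∧
    ∀ (U X : ℝ), 0 ≤ U → X ≤ 1 → PB a U X (C * U) 0 := by
  obtain ⟨C, hC, H⟩ := norm_Am_le ha
  have hc := cc_pos
  refine ⟨cc * C ^ 2 + 1, le_add_of_nonneg_left (by positivity),
    fun U X hU hX ψ X' t h h0 h1 => ?_⟩
  have h2 : X' ≤ 1 := h1.trans hX
  have h3 : ∀ u ∈ rows U, ‖Am ψ 1 a X' t u‖ ^ 2 ≤ C ^ 2 * X' := fun u _ => by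
    calc ‖Am ψ 1 a X' t u‖ ^ 2 ≤ (C * X') ^ 2 := by
          gcongr
          exact H ψ 1 X' t u h h0 h2
      _ = C ^ 2 * X' * X' := by ring
      _ ≤ C ^ 2 * X' * 1 := by gcongr
      _ = _ := mul_one _
  refine (Finset.sum_le_card_nsmul _ _ _ h3).trans ?_
  rw [nsmul_eq_mul, Real.rpow_zero, mul_one]
  calc ((rows U).card : ℝ) * (C ^ 2 * X') ≤ cc * U * (C ^ 2 * X') := by
        gcongr
        exact card_rows_le hU
    _ = cc * C ^ 2 * U * X' := by ring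
    _ ≤ _ := by
        gcongr
        linarith

/-! ### monotonicity -/

theorem PB.mono {a U U' X X' Λ Λ' C₁ C₁' : ℝ} (h : PB a U X Λ C₁)
    (hU : U' ≤ U) (hX : X' ≤ X) (h0 : 0 ≤ Λ) (hΛ : Λ ≤ Λ') (hC : C₁ ≤ C₁') :
    PB a U' X' Λ' C₁' := by
  intro ψ Y t hok hY hYX
  have h1 := h ψ Y t hok hY (hYX.trans hX)
  refine (Finset.sum_le_sum_of_subset_of_nonneg (rows_mono hU) fun _ _ _ => by positivity).trans
    (h1.trans ?_)
  have h2 := triv_pow hC t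
  have h3 : 0 ≤ Λ' := h0.trans hΛ
  gcongr

theorem MB.mono {a U U' X X' Λ Λ' C₁ C₁' : ℝ} (h : MB a U X Λ C₁)
    (hU : U' ≤ U) (hX : X' ≤ X) (h0 : 0 ≤ Λ) (hΛ : Λ ≤ Λ') (hC : C₁ ≤ C₁') :
    MB a U' X' Λ' C₁' := by
  intro ψ D Y t hok hY hYX
  have h1 := h ψ D Y t hok hY (hYX.trans hX)
  refine (Finset.sum_le_sum_of_subset_of_nonneg (rows_mono hU) fun _ _ _ => by positivity).trans
    (h1.trans ?_)
  have h2 := triv_pow hC t
  have h3 : 0 ≤ Λ' := h0.trans hΛ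
  have h4 : 0 ≤ w4 D := zero_le_one.trans (one_le_w4 D)
  gcongr

theorem MB.of_lt {a U X Λ C₁ : ℝ} (hU : U < 1) (h0 : 0 ≤ Λ) : MB a U X Λ C₁ := by
  intro ψ D Y t _ hY _
  have h4 : 0 ≤ w4 D := zero_le_one.trans (one_le_w4 D)
  rw [rows_eq_empty hU, Finset.sum_empty]
  positivity

end Crest.Agent.R27.Z.M1
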